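import Mathlib

/-!
Convexity lemma: a function with `y'' ≥ K² y - ε₁` and `y'(b) ≤ ε₂` decays towards `b`.
-/

open Set

namespace Vale.Agent.P139.H657

theorem conv_cosh {y y1 y2 : ℝ → ℝ} {b' b K ε1 ε2 : ℝ} (hb : b' < b) (hK : 0 < K)
    (h1 : 0 ≤ ε1) (h2 : 0 ≤ ε2) (hy : ContinuousOn y (Icc b' b))
    (hy1 : ContinuousOn y1 (Icc b' b)) (hd : ∀ r ∈ Ioo b' b, HasDerivAt y (y1 r) r)
    (hd1 : ∀ r ∈ Ioo b' b, HasDerivAt y1 (y2 r) r)
    (hy2 : ∀ r ∈ Ioo b' b, K ^ 2 * y r - ε1 ≤ y2 r) (hend : y1 b ≤ ε2) :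
    y b ≤ y b' / Real.cosh (K * (b - b')) + ε2 / K + ε1 / K ^ 2 := by
  have hK2 : 0 < K ^ 2 := by positivity
  set c : ℝ := ε1 / K ^ 2 with hc
  have hc0 : 0 ≤ c := by positivity
  have hcK : K ^ 2 * c = ε1 := by rw [hc]; field_simp
  -- `φ r = cosh (K (b - r))`
  set φ : ℝ → ℝ := fun r => Real.cosh (K * (b - r)) with hφ
  set ψ : ℝ → ℝ := fun r => Real.sinh (K * (b - r)) with hψ
  have hφpos : ∀ r, 0 < φ r := fun r => Real.cosh_pos _
  have hlin : ∀ r, HasDerivAt (fun x => K * (b - x)) (-K) r := fun r => by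
    simpa using ((hasDerivAt_id r).const_sub b).const_mul K
  have hφd : ∀ r, HasDerivAt φ (-K * ψ r) r := fun r => by
    have := (Real.hasDerivAt_cosh (K * (b - r))).comp r (hlin r)
    refine this.congr_deriv ?_
    simp [hψ]; ring
  have hψd : ∀ r, HasDerivAt ψ (-K * φ r) r := fun r => by
    have := (Real.hasDerivAt_sinh (K * (b - r))).comp r (hlin r)
    refine this.congr_deriv ?_
    simp [hφ]; ring
  have hφc : Continuous φ := continuous_iff_continuousAt.2 fun r => (hφd r).continuousAt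
  have hψc : Continuous ψ := continuous_iff_continuousAt.2 fun r => (hψd r).continuousAt
  have hsq : ∀ r, φ r ^ 2 - ψ r ^ 2 = 1 := fun r => Real.cosh_sq_sub_sinh_sq _
  have hφb : φ b = 1 := by simp [hφ]
  have hψb : ψ b = 0 := by simp [hψ]
  -- the Wronskian
  set G : ℝ → ℝ := fun r => y1 r * φ r + K * (y r - c) * ψ r with hG
  have hGc : ContinuousOn G (Icc b' b) :=
    (hy1.mul hφc.continuousOn).add
      (((continuousOn_const.mul (hy.sub continuousOn_const))).mul hψc.continuousOn)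
  have hGd : ∀ r ∈ Ioo b' b, HasDerivAt G ((y2 r - K ^ 2 * y r + ε1) * φ r) r := fun r hr => by
    have e := ((hd1 r hr).fun_mul (hφd r)).fun_add
      ((((hd r hr).sub_const c).const_mul K).fun_mul (hψd r))
    refine e.congr_deriv ?_
    rw [← hcK]; ring
  have hGmono : MonotoneOn G (Icc b' b) := by
    refine monotoneOn_of_deriv_nonneg (convex_Icc _ _) hGc ?_ ?_
    · intro r hr; rw [interior_Icc] at hr
      exact (hGd r hr).differentiableAt.differentiableWithinAt
    · intro r hr; rw [interior_Icc] at hr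
      rw [(hGd r hr).deriv]
      have := hy2 r hr
      have h3 : 0 ≤ y2 r - K ^ 2 * y r + ε1 := by linarith
      exact mul_nonneg h3 (hφpos r).le
  have hGle : ∀ r ∈ Icc b' b, G r ≤ ε2 := fun r hr => by
    have h3 := hGmono hr (right_mem_Icc.2 hb.le) hr.2
    have h4 : G b = y1 b := by simp [hG, hφb, hψb]
    linarith
  -- the quotient
  set H : ℝ → ℝ := fun r => ((y r - c) + ε2 / K * ψ r) / φ r with hH
  have hHc : ContinuousOn H (Icc b' b) :=
    (((hy.sub continuousOn_const)).add (continuousOn_const.mul hψc.continuousOn)).div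
      hφc.continuousOn fun r _ => (hφpos r).ne'
  have hHd : ∀ r ∈ Ioo b' b, HasDerivAt H ((G r - ε2) / φ r ^ 2) r := fun r hr => by
    have e := (((hd r hr).sub_const c).fun_add ((hψd r).const_mul (ε2 / K))).fun_div (hφd r)
      (hφpos r).ne'
    refine e.congr_deriv ?_
    have h5 := hsq r
    congr 1
    have h6 : φ r ^ 2 = 1 + ψ r ^ 2 := by linarith
    have h7 : ε2 / K * K = ε2 := by field_simp
    simp only [hG]
    linear_combination (-(φ r ^ 2) + ψ r ^ 2) * h7 - ε2 * h5
  have hHanti : AntitoneOn H (Icc b' b) := by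
    refine antitoneOn_of_deriv_nonpos (convex_Icc _ _) hHc ?_ ?_
    · intro r hr; rw [interior_Icc] at hr
      exact (hHd r hr).differentiableAt.differentiableWithinAt
    · intro r hr; rw [interior_Icc] at hr
      rw [(hHd r hr).deriv]
      have := hGle r ⟨hr.1.le, hr.2.le⟩
      exact div_nonpos_of_nonpos_of_nonneg (by linarith) (by positivity)
  have h8 := hHanti (left_mem_Icc.2 hb.le) (right_mem_Icc.2 hb.le) hb.le
  have h9 : H b = y b - c := by simp [hH, hφb, hψb]
  rw [h9] at h8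
  have h10 : H b' ≤ y b' / φ b' + ε2 / K := by
    simp only [hH]
    rw [div_add' _ _ _ (hφpos b').ne', div_le_div_iff_of_pos_right (hφpos b')]
    have h11 : ψ b' ≤ φ b' := (Real.sinh_lt_cosh _).le
    have h12 : ε2 / K * ψ b' ≤ ε2 / K * φ b' := mul_le_mul_of_nonneg_left h11 (by positivity)
    linarith
  have h13 : φ b' = Real.cosh (K * (b - b')) := rfl
  rw [h13] at h10
  linarith

end Vale.Agent.P139.H657
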