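import Vale.Agent.P139.H657.S1Core

/-!
`s1_core`: the high frequency exclusion for one pair at one radius `b`.
-/

open Complex Set MeasureTheory
open scoped ComplexConjugate

namespace Vale.Agent.P139.H657

open Vale.Agent.P139.H498 Vale.Agent.P139.H399

/-- Case `Re mu <= 1`. -/
theorem s1_case1 {C : ℝ} (hC : 1 ≤ C) : ∃ δ : ℝ, 0 < δ ∧ ∀ Cb c c3 η h : ℝ, 0 < Cb → 0 < c →
    0 < c3 → 0 < η → 0 < h → ∃ n0 K0 ε : ℝ, 1 ≤ n0 ∧ 1 ≤ K0 ∧ 0 < ε ∧
    ∀ {c0 : ℝ} {μ : ℂ} {M X VA VB M' X' VA' VB' : ℝ → ℝ} {A B A1 B1 A2 B2 : ℝ → ℂ}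
      {b n L κ D eD e1 s0 r0 m1 : ℝ},
      SysOn c0 μ M X VA VB M' X' VA' VB' A B A1 B1 A2 B2 b →
      Coef C n L b X VA VB X' VA' VB' → 1 / C ≤ c0 → c0 ≤ C → 0 ≤ (μ + c0).re → μ.re ≤ 1 →
      Layer C n η δ b M VA VB s0 r0 m1 → n0 ≤ n → K0 ≤ κ →
      κ ^ 2 = 1 + ‖μ + c0‖ + L → h < b →
      (∀ r ∈ Icc (b - h) b, 1 / C ≤ M r ∧ M r ≤ C) →
      (∀ r ∈ Icc (b - h) b, |M' r| ≤ C * M r) →
      (∀ r ∈ Icc (b - h) b, VA r - VB r ≤ e1) → 0 ≤ e1 →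
      0 ≤ D → D ≤ eD * (I1 b M A + I1 b M B) → 0 ≤ eD →
      κ ^ 6 * eD ≤ ε → κ ^ 6 * e1 ≤ ε →
      BdOut Cb c c3 κ (L / b ^ 2) D (M b) (X b) (μ + c0) 1 (A b + I * B b) (A1 b + I * B1 b) →
      BdOut Cb c c3 κ (L / b ^ 2) D (M b) (X b) (μ + c0) (-1) (A b - I * B b)
        (A1 b - I * B1 b) →
      (c3 * κ ^ 2 ≤ L / b ^ 2 + (μ + c0).im ∨ c3 * κ ^ 2 ≤ L / b ^ 2 - (μ + c0).im) →
      ∀ r ∈ Ioc 0 b, A r = 0 ∧ B r = 0 := by
  have hC0 : 0 < C := by linarith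
  obtain ⟨δ, hδ, HI⟩ := close_I' hC
  refine ⟨δ, hδ, fun Cb c c3 η h hCb hc hc3 hη hh => ?_⟩
  set C2 : ℝ := max C (max Cb (1 / c)) with hC2
  have hC2C : C ≤ C2 := le_max_left _ _
  have hC2Cb : Cb ≤ C2 := (le_max_left _ _).trans (le_max_right _ _)
  have hC2c : 1 / c ≤ C2 := (le_max_right _ _).trans (le_max_right _ _)
  have hC20 : 0 < C2 := by linarith
  obtain ⟨n0, K1, ε1, hn0, hK1, hε1, hε11, HI2⟩ := HI C2 η hC2C hη
  obtain ⟨K2, ε2, hK2, hε2, HE⟩ := ev_all (C := C) (Cb := Cb) (c3 := c3) (h := h)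
    (ε3 := ε1 / (1 + Cb)) hC hCb hc3 hh (by positivity)
  refine ⟨n0, max K1 K2, ε2, hn0, hK1.trans (le_max_left _ _), hε2, ?_⟩
  intro c0 μ M X VA VB M' X' VA' VB' A B A1 B1 A2 B2 b n L κ D eD e1 s0 r0 m1 hs hco hc0 hc0' hre
    hμ hly hn hκ hκ2 hhb hM hM' hV he1 hD hDe heD hκD hκe1 hu hv hdich
  have hκK1 : K1 ≤ κ := (le_max_left _ _).trans hκ
  have hκK2 : K2 ≤ κ := (le_max_right _ _).trans hκ
  have hκ1 : 1 ≤ κ := hK1.trans hκK1
  have hκ0 : 0 < κ := by linarith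
  have hMb := (hs.Mpos b ⟨hs.hb, le_rfl⟩).le
  obtain ⟨su, sv⟩ := SU_nonneg hs A B
  have hE0 := En_nonneg hs hco
  obtain ⟨E1, E2, E3⟩ := HE hs hco hc0 hκK2 hhb hM hM' hV hD hDe heD he1 hκD hκe1
  have him : (μ + c0).im = μ.im := by simp
  have hre' : (μ + c0).re = μ.re + c0 := by simp
  have hcC : 0 < c0 := lt_of_lt_of_le (by positivity) hc0
  have hμC : |μ.re| ≤ C := by
    rw [abs_le]; constructor
    · linarith
    · linarith
  set Y := En b M VB A B A1 B1 + (SU b M A B + SV b M A B) with hY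
  set X0 := En b M VB A B A1 B1 + κ ^ 2 * (SU b M A B + SV b M A B) with hX0
  have hYX : Y ≤ X0 := by
    have : 1 * (SU b M A B + SV b M A B) ≤ κ ^ 2 * (SU b M A B + SV b M A B) :=
      mul_le_mul_of_nonneg_right (one_le_pow₀ hκ1) (by linarith)
    rw [hY, hX0]; linarith
  have hY0 : 0 ≤ Y := by positivity
  have hp23 : κ ^ 2 ≤ κ ^ 3 := pow_le_pow_right₀ hκ1 (by norm_num)
  have h3le : ε1 / (1 + Cb) ≤ ε1 := div_le_self hε1.le (by linarith)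
  have hYX3 : ε1 / (1 + Cb) * Y ≤ ε1 * X0 :=
    mul_le_mul h3le hYX hY0 hε1.le
  have hκ2le : ‖μ + c0‖ ≤ κ ^ 2 := by
    have := hco.hL
    linarith
  have hCbD : 0 ≤ Cb * D := by positivity
  have herr : κ ^ 2 * (Cb * D) ≤ ε1 * X0 := by
    have q1 : κ ^ 2 * D ≤ ε1 / (1 + Cb) * Y :=
      (mul_le_mul_of_nonneg_right hp23 hD).trans E1
    have q2 : κ ^ 2 * (Cb * D) = Cb * (κ ^ 2 * D) := by ring
    have q3 : Cb * (κ ^ 2 * D) ≤ Cb * (ε1 / (1 + Cb) * Y) := mul_le_mul_of_nonneg_left q1 hCb.le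
    have q4 : Cb * (ε1 / (1 + Cb) * Y) ≤ ε1 * Y := by
      have : Cb * (ε1 / (1 + Cb)) ≤ ε1 := by
        rw [mul_div_assoc', div_le_iff₀ (by linarith)]
        nlinarith
      have := mul_le_mul_of_nonneg_right this hY0
      linarith
    have q5 := mul_le_mul_of_nonneg_left hYX hε1.le
    linarith
  -- boundary inequalities
  have hTu : SU b M A1 B1 ≤ C2 * κ ^ 2 * SU b M A B + Cb * D := by
    have := hu.T_le
    have q : Cb * κ ^ 2 * SU b M A B ≤ C2 * κ ^ 2 * SU b M A B :=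
      mul_le_mul_of_nonneg_right (mul_le_mul_of_nonneg_right hC2Cb (by positivity)) su
    change SU b M A1 B1 ≤ Cb * κ ^ 2 * SU b M A B + Cb * D at this
    linarith
  have hTv : SV b M A1 B1 ≤ C2 * κ ^ 2 * SV b M A B + Cb * D := by
    have := hv.T_le
    have q : Cb * κ ^ 2 * SV b M A B ≤ C2 * κ ^ 2 * SV b M A B :=
      mul_le_mul_of_nonneg_right (mul_le_mul_of_nonneg_right hC2Cb (by positivity)) sv
    change SV b M A1 B1 ≤ Cb * κ ^ 2 * SV b M A B + Cb * D at this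
    linarith
  -- evanescent alternative
  have evu : c3 * κ ^ 2 ≤ L / b ^ 2 + (μ + c0).im → κ ^ 2 * SU b M A B ≤ ε1 * X0 := by
    intro hev
    have h1 := hu.ev (by rw [one_mul]; exact hev)
    have h2 : M b * ((A1 b + I * B1 b) * conj (A b + I * B b)).re ≤ Cb * D := by
      have : 0 ≤ c * κ * (M b * normSq (A b + I * B b)) := by
        have := normSq_nonneg (A b + I * B b)
        positivity
      linarith
    have h3 := E2 (by rw [him] at hev; exact hev) h2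
    have h4 : κ ^ 2 * SU b M A B ≤ κ ^ 3 * SU b M A B := mul_le_mul_of_nonneg_right hp23 su
    linarith
  have evv : c3 * κ ^ 2 ≤ L / b ^ 2 - (μ + c0).im → κ ^ 2 * SV b M A B ≤ ε1 * X0 := by
    intro hev
    have h1 := hv.ev (by linarith)
    have h2 : M b * ((A1 b - I * B1 b) * conj (A b - I * B b)).re ≤ Cb * D := by
      have : 0 ≤ c * κ * (M b * normSq (A b - I * B b)) := by
        have := normSq_nonneg (A b - I * B b)
        positivity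
      linarith
    have h3 := E3 (by rw [him] at hev; exact hev) h2
    have h4 : κ ^ 2 * SV b M A B ≤ κ ^ 3 * SV b M A B := mul_le_mul_of_nonneg_right hp23 sv
    linarith
  -- oscillating alternative
  have osu : L / b ^ 2 + (μ + c0).im < c3 * κ ^ 2 →
      κ * SU b M A B ≤ C2 * (|FU b M A B A1 B1| + Cb * D) ∧ κ ^ 2 ≤ C2 * ‖μ + c0‖ := by
    intro hos
    have h1 := hu.os (by rw [one_mul]; exact hos)
    have h2 := hu.nu (by rw [one_mul]; exact hos)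
    have h3 : |FU b M A B A1 B1| =
        M b * |((A1 b + I * B1 b) * conj (A b + I * B b)).im| := by
      rw [FU, abs_mul, abs_of_nonneg hMb]
    refine ⟨?_, h2.trans (mul_le_mul_of_nonneg_right hC2Cb (norm_nonneg _))⟩
    rw [h3]
    have h4 : κ * SU b M A B = 1 / c * (c * κ * (M b * normSq (A b + I * B b))) := by
      rw [SU]; field_simp
    rw [h4]
    have h5 : 0 ≤ M b * |((A1 b + I * B1 b) * conj (A b + I * B b)).im| + Cb * D := by
      positivity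
    exact (mul_le_mul_of_nonneg_left h1 (by positivity)).trans
      (mul_le_mul_of_nonneg_right hC2c h5)
  have osv : L / b ^ 2 - (μ + c0).im < c3 * κ ^ 2 →
      κ * SV b M A B ≤ C2 * (|FV b M A B A1 B1| + Cb * D) ∧ κ ^ 2 ≤ C2 * ‖μ + c0‖ := by
    intro hos
    have h1 := hv.os (by linarith)
    have h2 := hv.nu (by linarith)
    have h3 : |FV b M A B A1 B1| =
        M b * |((A1 b - I * B1 b) * conj (A b - I * B b)).im| := by
      rw [FV, abs_mul, abs_of_nonneg hMb]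
    refine ⟨?_, h2.trans (mul_le_mul_of_nonneg_right hC2Cb (norm_nonneg _))⟩
    rw [h3]
    have h4 : κ * SV b M A B = 1 / c * (c * κ * (M b * normSq (A b - I * B b))) := by
      rw [SV]; field_simp
    rw [h4]
    have h5 : 0 ≤ M b * |((A1 b - I * B1 b) * conj (A b - I * B b)).im| + Cb * D := by
      positivity
    exact (mul_le_mul_of_nonneg_left h1 (by positivity)).trans
      (mul_le_mul_of_nonneg_right hC2c h5)
  have hd : (κ ^ 2 * SU b M A B ≤ ε1 * X0 ∧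
      (κ ^ 2 * SV b M A B ≤ ε1 * X0 ∨
        (κ * SV b M A B ≤ C2 * (|FV b M A B A1 B1| + Cb * D) ∧ κ ^ 2 ≤ C2 * ‖μ + c0‖))) ∨
      (κ ^ 2 * SV b M A B ≤ ε1 * X0 ∧
        (κ * SU b M A B ≤ C2 * (|FU b M A B A1 B1| + Cb * D) ∧ κ ^ 2 ≤ C2 * ‖μ + c0‖)) := by
    rcases hdich with hd1 | hd1
    · left
      refine ⟨evu hd1, ?_⟩
      rcases le_or_gt (c3 * κ ^ 2) (L / b ^ 2 - (μ + c0).im) with hd2 | hd2
      · exact Or.inl (evv hd2)
      · exact Or.inr (osv hd2)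
    · rcases le_or_gt (c3 * κ ^ 2) (L / b ^ 2 + (μ + c0).im) with hd2 | hd2
      · exact Or.inl ⟨evu hd2, Or.inl (evv hd1)⟩
      · exact Or.inr ⟨evv hd1, osu hd2⟩
  obtain ⟨z1, z2, z3⟩ := HI2 hs hco hc0 hc0' hμC hly hn hκK1 hκ2le hCbD hTu hTv herr hd
  exact vanish hs hco z1 z2 z3

/-- Case `1 <= Re mu`. -/
theorem s1_case2 {C Cb c c3 h : ℝ} (hC : 1 ≤ C) (hCb : 0 < Cb) (hc : 0 < c) (hc3 : 0 < c3)
    (hh : 0 < h) : ∃ K0 ε : ℝ, 1 ≤ K0 ∧ 0 < ε ∧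
    ∀ {c0 : ℝ} {μ : ℂ} {M X VA VB M' X' VA' VB' : ℝ → ℝ} {A B A1 B1 A2 B2 : ℝ → ℂ}
      {b n L κ D eD e1 : ℝ},
      SysOn c0 μ M X VA VB M' X' VA' VB' A B A1 B1 A2 B2 b →
      Coef C n L b X VA VB X' VA' VB' → 1 / C ≤ c0 → 1 ≤ μ.re →
      C ^ 2 ≤ n → K0 ≤ κ →
      κ ^ 2 = 1 + ‖μ + c0‖ + L → h < b →
      (∀ r ∈ Icc (b - h) b, 1 / C ≤ M r ∧ M r ≤ C) →
      (∀ r ∈ Icc (b - h) b, |M' r| ≤ C * M r) →
      (∀ r ∈ Icc (b - h) b, VA r - VB r ≤ e1) → 0 ≤ e1 →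
      0 ≤ D → D ≤ eD * (I1 b M A + I1 b M B) → 0 ≤ eD →
      κ ^ 6 * eD ≤ ε → κ ^ 6 * e1 ≤ ε →
      BdOut Cb c c3 κ (L / b ^ 2) D (M b) (X b) (μ + c0) 1 (A b + I * B b) (A1 b + I * B1 b) →
      BdOut Cb c c3 κ (L / b ^ 2) D (M b) (X b) (μ + c0) (-1) (A b - I * B b)
        (A1 b - I * B1 b) →
      ∀ r ∈ Ioc 0 b, A r = 0 ∧ B r = 0 := by
  have hC0 : 0 < C := by linarith
  set c5 : ℝ := min c 1 with hc5
  have hc50 : 0 < c5 := lt_min hc one_pos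
  have hc51 : c5 ≤ 1 := min_le_right _ _
  set K : ℝ := 2 * C * Cb + Cb + 1 with hK
  have hK1 : 1 ≤ K := by
    have : 0 ≤ 2 * C * Cb + Cb := by positivity
    rw [hK]; linarith
  have hKCb : Cb ≤ K := by
    have : 0 ≤ 2 * C * Cb := by positivity
    rw [hK]; linarith
  obtain ⟨K2, ε2, hK2, hε2, HE⟩ := ev_all (C := C) (Cb := Cb) (c3 := c3) (h := h)
    (ε3 := c5 / (8 * K)) hC hCb hc3 hh (by positivity)
  refine ⟨K2, ε2, hK2, hε2, ?_⟩
  intro c0 μ M X VA VB M' X' VA' VB' A B A1 B1 A2 B2 b n L κ D eD e1 hs hco hc0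
    hμ hn hκ hκ2 hhb hM hM' hV he1 hD hDe heD hκD hκe1 hu hv
  have hκ1 : 1 ≤ κ := hK2.trans hκ
  have hκ0 : 0 < κ := by linarith
  have hbm : b ∈ Ioc 0 b := ⟨hs.hb, le_rfl⟩
  have hMb := (hs.Mpos b hbm).le
  obtain ⟨su, sv⟩ := SU_nonneg hs A B
  have hE0 := En_nonneg hs hco
  obtain ⟨E1, E2, E3⟩ := HE hs hco hc0 hκ hhb hM hM' hV hD hDe heD he1 hκD hκe1
  have him : (μ + c0).im = μ.im := by simp
  have hcC : 0 < c0 := lt_of_lt_of_le (by positivity) hc0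
  have hre' : 0 < (μ + c0).re := by
    have : (μ + c0).re = μ.re + c0 := by simp
    linarith
  have hX2 := hco.hX2 b hbm
  have hX0 : 0 ≤ X b := le_trans (div_nonneg hs.hb.le hC0.le) (hco.hX1 b hbm)
  have hVBb := hco.hVB b hbm
  have hVB0 := hco.VBnonneg hbm
  have hlam : ‖μ + c0‖ ≤ κ ^ 2 := by
    have := hco.hL
    linarith
  set Y1 := En b M VB A B A1 B1 + (SU b M A B + SV b M A B) with hY1
  set Y := En b M VB A B A1 B1 + κ ^ 3 * (SU b M A B + SV b M A B) with hY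
  have hYY : Y1 ≤ Y := by
    have : 1 * (SU b M A B + SV b M A B) ≤ κ ^ 3 * (SU b M A B + SV b M A B) :=
      mul_le_mul_of_nonneg_right (one_le_pow₀ hκ1) (by linarith)
    rw [hY1, hY]; linarith
  have hY10 : 0 ≤ Y1 := by positivity
  have hY0 : 0 ≤ Y := hY10.trans hYY
  set ε3 := c5 / (8 * K) with hε3
  have hε30 : 0 < ε3 := by positivity
  have hεK : K * ε3 = c5 / 8 := by rw [hε3]; field_simp
  have hε3le : ε3 ≤ c5 / 8 := by
    have := mul_le_mul_of_nonneg_right hK1 hε30.le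
    linarith
  have hε3Y : ε3 * Y1 ≤ ε3 * Y := mul_le_mul_of_nonneg_left hYY hε30.le
  have E1' : κ ^ 3 * D ≤ ε3 * Y := E1.trans hε3Y
  have hp1 : κ ≤ κ ^ 3 := by
    calc κ = κ ^ 1 := (pow_one κ).symm
      _ ≤ κ ^ 3 := pow_le_pow_right₀ hκ1 (by norm_num)
  have hκD' : Cb * κ * D ≤ c5 / 8 * Y := by
    have q1 : κ * D ≤ ε3 * Y := (mul_le_mul_of_nonneg_right hp1 hD).trans E1'
    have q2 : Cb * κ * D = Cb * (κ * D) := by ring
    have q3 : Cb * (κ * D) ≤ K * (ε3 * Y) :=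
      mul_le_mul hKCb q1 (by positivity) (by linarith)
    have q4 : K * (ε3 * Y) = c5 / 8 * Y := by rw [← mul_assoc, hεK]
    linarith
  have hKY : K * (ε3 * Y) = c5 / 8 * Y := by rw [← mul_assoc, hεK]
  -- component u
  have hU : (X b / 4 * (SU b M A1 B1 - VB b * SU b M A B) + RU b (μ + c0) M A B A1 B1 / 2 ≤
        c5 / 8 * Y ∧ κ ^ 3 * SU b M A B ≤ c5 / 8 * Y) ∨
      X b / 4 * (SU b M A1 B1 - VB b * SU b M A B) + RU b (μ + c0) M A B A1 B1 / 2 ≤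
        -(c5 * κ ^ 3 * SU b M A B) + c5 / 8 * Y := by
    rcases le_or_gt (c3 * κ ^ 2) (L / b ^ 2 + (μ + c0).im) with hev | hos
    · left
      have h1 := hu.ev (by rw [one_mul]; exact hev)
      have h2 : M b * ((A1 b + I * B1 b) * conj (A b + I * B b)).re ≤ Cb * D := by
        have : 0 ≤ c * κ * (M b * normSq (A b + I * B b)) := by
          have := normSq_nonneg (A b + I * B b)
          positivity
        linarith
      have h3 := (E2 (by rw [him] at hev; exact hev) h2).trans hε3Y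
      refine ⟨?_, h3.trans (mul_le_mul_of_nonneg_right hε3le hY0)⟩
      have hR : RU b (μ + c0) M A B A1 B1 ≤
          κ ^ 2 * (κ * SU b M A B + SU b M A1 B1 / κ) := R_le hMb hκ0 hlam
      have := P_ev_le (C := C) (Cb := Cb) (κ := κ) (S := SU b M A B) (T := SU b M A1 B1)
        (R := RU b (μ + c0) M A B A1 B1) (X := X b) (s := VB b) (D := D) (Y := Y) (ε3 := ε3)
        hC hCb.le hκ1 hX0 hX2 hVB0 su hD hu.T_le hR h3 E1'
      linarith
    · right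
      have h1 := hu.en (by rw [one_mul]; exact hos) hre'
      rw [← hVBb] at h1
      have e1 : RU b (μ + c0) M A B A1 B1 / 2 = 1 / 2 * (M b * (conj (μ + c0)
          * (A1 b + I * B1 b) * conj (A b + I * B b)).re) := by
        rw [RU, mul_assoc (conj (μ + c0))]; ring
      rw [e1]
      have h2 : c5 * κ ^ 3 * SU b M A B ≤ c * κ ^ 3 * (M b * normSq (A b + I * B b)) :=
        mul_le_mul_of_nonneg_right (mul_le_mul_of_nonneg_right (min_le_left _ _)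
          (by positivity)) su
      change X b / 4 * (M b * normSq (A1 b + I * B1 b) - VB b * (M b * normSq (A b + I * B b)))
        + _ ≤ _
      linarith
  have hV' : (X b / 4 * (SV b M A1 B1 - VB b * SV b M A B) + RV b (μ + c0) M A B A1 B1 / 2 ≤
        c5 / 8 * Y ∧ κ ^ 3 * SV b M A B ≤ c5 / 8 * Y) ∨
      X b / 4 * (SV b M A1 B1 - VB b * SV b M A B) + RV b (μ + c0) M A B A1 B1 / 2 ≤
        -(c5 * κ ^ 3 * SV b M A B) + c5 / 8 * Y := by
    rcases le_or_gt (c3 * κ ^ 2) (L / b ^ 2 - (μ + c0).im) with hev | hos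
    · left
      have h1 := hv.ev (by linarith)
      have h2 : M b * ((A1 b - I * B1 b) * conj (A b - I * B b)).re ≤ Cb * D := by
        have : 0 ≤ c * κ * (M b * normSq (A b - I * B b)) := by
          have := normSq_nonneg (A b - I * B b)
          positivity
        linarith
      have h3 := (E3 (by rw [him] at hev; exact hev) h2).trans hε3Y
      refine ⟨?_, h3.trans (mul_le_mul_of_nonneg_right hε3le hY0)⟩
      have hR : RV b (μ + c0) M A B A1 B1 ≤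
          κ ^ 2 * (κ * SV b M A B + SV b M A1 B1 / κ) := R_le hMb hκ0 hlam
      have := P_ev_le (C := C) (Cb := Cb) (κ := κ) (S := SV b M A B) (T := SV b M A1 B1)
        (R := RV b (μ + c0) M A B A1 B1) (X := X b) (s := VB b) (D := D) (Y := Y) (ε3 := ε3)
        hC hCb.le hκ1 hX0 hX2 hVB0 sv hD hv.T_le hR h3 E1'
      linarith
    · right
      have h1 := hv.en (by linarith) hre'
      rw [← hVBb] at h1
      have e1 : RV b (μ + c0) M A B A1 B1 / 2 = 1 / 2 * (M b * (conj (μ + c0)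
          * (A1 b - I * B1 b) * conj (A b - I * B b)).re) := by
        rw [RV, mul_assoc (conj (μ + c0))]; ring
      rw [e1]
      have h2 : c5 * κ ^ 3 * SV b M A B ≤ c * κ ^ 3 * (M b * normSq (A b - I * B b)) :=
        mul_le_mul_of_nonneg_right (mul_le_mul_of_nonneg_right (min_le_left _ _)
          (by positivity)) sv
      change X b / 4 * (M b * normSq (A1 b - I * B1 b) - VB b * (M b * normSq (A b - I * B b)))
        + _ ≤ _
      linarith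
  obtain ⟨z1, z2, z3⟩ := close_II hs hco hμ hn hκ1 hc50 hc51 (by positivity : 0 ≤ c5 / 8)
    (by linarith) hU hV'
  exact vanish hs hco z1 z2 z3

/-- The core of [S1]. -/
theorem s1_core {C : ℝ} (hC : 1 ≤ C) : ∃ δ : ℝ, 0 < δ ∧ ∀ Cb c c3 η h : ℝ, 0 < Cb → 0 < c →
    0 < c3 → 0 < η → 0 < h → ∃ n0 K0 ε : ℝ, 1 ≤ n0 ∧ 1 ≤ K0 ∧ 0 < ε ∧
    ∀ {c0 : ℝ} {μ : ℂ} {M X VA VB M' X' VA' VB' : ℝ → ℝ} {A B A1 B1 A2 B2 : ℝ → ℂ}
      {b n L κ D eD e1 s0 r0 m1 : ℝ},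
      SysOn c0 μ M X VA VB M' X' VA' VB' A B A1 B1 A2 B2 b →
      Coef C n L b X VA VB X' VA' VB' → 1 / C ≤ c0 → c0 ≤ C → 0 ≤ (μ + c0).re →
      Layer C n η δ b M VA VB s0 r0 m1 → n0 ≤ n → K0 ≤ κ →
      κ ^ 2 = 1 + ‖μ + c0‖ + L → h < b →
      (∀ r ∈ Icc (b - h) b, 1 / C ≤ M r ∧ M r ≤ C) →
      (∀ r ∈ Icc (b - h) b, |M' r| ≤ C * M r) →
      (∀ r ∈ Icc (b - h) b, VA r - VB r ≤ e1) → 0 ≤ e1 →
      0 ≤ D → D ≤ eD * (I1 b M A + I1 b M B) → 0 ≤ eD →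
      κ ^ 6 * eD ≤ ε → κ ^ 6 * e1 ≤ ε →
      BdOut Cb c c3 κ (L / b ^ 2) D (M b) (X b) (μ + c0) 1 (A b + I * B b) (A1 b + I * B1 b) →
      BdOut Cb c c3 κ (L / b ^ 2) D (M b) (X b) (μ + c0) (-1) (A b - I * B b)
        (A1 b - I * B1 b) →
      ((μ + c0).re ≤ c0 + 1 →
        c3 * κ ^ 2 ≤ L / b ^ 2 + (μ + c0).im ∨ c3 * κ ^ 2 ≤ L / b ^ 2 - (μ + c0).im) →
      ∀ r ∈ Ioc 0 b, A r = 0 ∧ B r = 0 := by
  obtain ⟨δ, hδ, H1⟩ := s1_case1 hC
  refine ⟨δ, hδ, fun Cb c c3 η h hCb hc hc3 hη hh => ?_⟩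
  obtain ⟨n1, K1, ε1, hn1, hK1, hε1, G1⟩ := H1 Cb c c3 η h hCb hc hc3 hη hh
  obtain ⟨K2, ε2, hK2, hε2, G2⟩ := s1_case2 hC hCb hc hc3 hh
  refine ⟨max n1 (C ^ 2), max K1 K2, min ε1 ε2, hn1.trans (le_max_left _ _),
    hK1.trans (le_max_left _ _), lt_min hε1 hε2, ?_⟩
  intro c0 μ M X VA VB M' X' VA' VB' A B A1 B1 A2 B2 b n L κ D eD e1 s0 r0 m1 hs hco hc0 hc0' hre
    hly hn hκ hκ2 hhb hM hM' hV he1 hD hDe heD hκD hκe1 hu hv hdich
  rcases le_or_gt μ.re 1 with hμ | hμ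
  · refine G1 hs hco hc0 hc0' hre hμ hly ((le_max_left _ _).trans hn) ((le_max_left _ _).trans hκ)
      hκ2 hhb hM hM' hV he1 hD hDe heD (hκD.trans (min_le_left _ _))
      (hκe1.trans (min_le_left _ _)) hu hv (hdich ?_)
    have : (μ + c0).re = μ.re + c0 := by simp
    linarith
  · exact G2 hs hco hc0 hμ.le ((le_max_right _ _).trans hn) ((le_max_right _ _).trans hκ)
      hκ2 hhb hM hM' hV he1 hD hDe heD (hκD.trans (min_le_right _ _))
      (hκe1.trans (min_le_right _ _)) hu hv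

end Vale.Agent.P139.H657
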