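import Vale.Agent.P139.H657.Close2

/-!
CLOSE I (Morawetz case) of the high frequency exclusion [S1]: final form.
-/

open Complex Set MeasureTheory
open scoped ComplexConjugate

namespace Vale.Agent.P139.H657

open Vale.Agent.P139.H498

/-- Smallness of the constant in `close_aux3`. -/
theorem small_const {C : ℝ} (hC : 1 ≤ C) : ∃ G θ : ℝ, 1 ≤ G ∧ 0 < θ ∧
    ∀ D : ℝ, 0 ≤ D → ∃ n0 K0 ε : ℝ, 1 ≤ n0 ∧ 1 ≤ K0 ∧ 0 < ε ∧ ε ≤ 1 ∧
      ∀ n κ : ℝ, n0 ≤ n → K0 ≤ κ →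
        6 * C ^ 2 * (ε + C * ((C + 3) * ε + (1 + 9 * C ^ 3) / κ)) + 2 * C * ε +
          C * (20 * C ^ 3 / n + G * (θ + D * (20 * C ^ 3) / n) + (1 + 2 * C) / G) ≤ 1 / 2 := by
  have hC0 : 0 < C := by linarith
  set G : ℝ := 16 * C * (1 + 2 * C) with hG
  have hG1 : 1 ≤ G := by
    have : 1 * 1 ≤ C * (1 + 2 * C) := mul_le_mul hC (by linarith) (by norm_num) hC0.le
    rw [hG]; linarith
  have hG0 : 0 < G := by linarith
  refine ⟨G, 1 / (16 * C * G), hG1, by positivity, fun D hD => ?_⟩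
  set n0 : ℝ := 320 * C ^ 4 * (1 + G * D) + 1 with hn0
  set K0 : ℝ := 192 * C ^ 3 * (1 + 9 * C ^ 3) + 1 with hK0
  set ε : ℝ := 1 / (192 * C ^ 2 * (1 + C * (C + 3))) with hε
  have hε0 : 0 < ε := by positivity
  have hbig : 1 ≤ 192 * C ^ 2 * (1 + C * (C + 3)) := by
    have h1 : 1 ≤ C ^ 2 := one_le_pow₀ hC
    have h2 : 1 ≤ 1 + C * (C + 3) := by
      have : 0 ≤ C * (C + 3) := by positivity
      linarith
    have := mul_le_mul h1 h2 (by norm_num) (by positivity)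
    linarith
  have hε1 : ε ≤ 1 := by
    rw [hε, div_le_one (by positivity)]; exact hbig
  refine ⟨n0, K0, ε, by rw [hn0]; have : 0 ≤ 320 * C ^ 4 * (1 + G * D) := by positivity
                        linarith,
    by rw [hK0]; have : 0 ≤ 192 * C ^ 3 * (1 + 9 * C ^ 3) := by positivity
       linarith, hε0, hε1, fun n κ hn hκ => ?_⟩
  have hn00 : 0 < n := by
    have : 0 ≤ 320 * C ^ 4 * (1 + G * D) := by positivity
    linarith
  have hκ00 : 0 < κ := by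
    have : 0 ≤ 192 * C ^ 3 * (1 + 9 * C ^ 3) := by positivity
    linarith
  -- pieces
  have p1 : 6 * C ^ 2 * (ε + C * ((C + 3) * ε)) = 1 / 32 := by
    rw [hε]; field_simp; ring
  have p2 : 6 * C ^ 2 * (C * ((1 + 9 * C ^ 3) / κ)) ≤ 1 / 32 := by
    have e : 6 * C ^ 2 * (C * ((1 + 9 * C ^ 3) / κ)) = 6 * C ^ 3 * (1 + 9 * C ^ 3) / κ := by ring
    rw [e, div_le_iff₀ hκ00]
    linarith
  have p3 : 2 * C * ε ≤ 1 / 32 := by
    have h1 : 1 ≤ C ^ 2 := one_le_pow₀ hC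
    have h3 : 1 + 1 * (C + 3) ≤ 1 + C * (C + 3) := by
      have := mul_le_mul_of_nonneg_right hC (by linarith : (0:ℝ) ≤ C + 3)
      linarith
    have h4 : 1 * (C + 4) ≤ C ^ 2 * (1 + C * (C + 3)) :=
      mul_le_mul h1 (by linarith) (by positivity) (by positivity)
    rw [hε, mul_one_div, div_le_div_iff₀ (by positivity) (by norm_num)]
    linarith
  have p4 : C * (20 * C ^ 3 / n) ≤ 1 / 16 := by
    have e : C * (20 * C ^ 3 / n) = 20 * C ^ 4 / n := by ring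
    rw [e, div_le_iff₀ hn00]
    have : 0 ≤ 320 * C ^ 4 * (G * D) := by positivity
    have e2 : 320 * C ^ 4 * (1 + G * D) = 320 * C ^ 4 + 320 * C ^ 4 * (G * D) := by ring
    rw [e2] at hn0
    linarith
  have p5 : C * (G * (D * (20 * C ^ 3) / n)) ≤ 1 / 16 := by
    have e : C * (G * (D * (20 * C ^ 3) / n)) = 20 * C ^ 4 * (G * D) / n := by ring
    rw [e, div_le_iff₀ hn00]
    have : 0 ≤ 320 * C ^ 4 := by positivity
    have e2 : 320 * C ^ 4 * (1 + G * D) = 320 * C ^ 4 + 320 * C ^ 4 * (G * D) := by ring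
    rw [e2] at hn0
    linarith
  have p6 : C * (G * (1 / (16 * C * G))) = 1 / 16 := by field_simp
  have p7 : C * ((1 + 2 * C) / G) = 1 / 16 := by rw [hG]; field_simp
  have expand : 6 * C ^ 2 * (ε + C * ((C + 3) * ε + (1 + 9 * C ^ 3) / κ)) + 2 * C * ε +
          C * (20 * C ^ 3 / n + G * (1 / (16 * C * G) + D * (20 * C ^ 3) / n) + (1 + 2 * C) / G)
      = 6 * C ^ 2 * (ε + C * ((C + 3) * ε)) + 6 * C ^ 2 * (C * ((1 + 9 * C ^ 3) / κ))
        + 2 * C * ε + C * (20 * C ^ 3 / n) + C * (G * (D * (20 * C ^ 3) / n))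
        + C * (G * (1 / (16 * C * G))) + C * ((1 + 2 * C) / G) := by ring
  rw [expand]
  linarith

/-- Layer hypotheses: the core `(0,r0]` where `VA - VB ≥ n/C`, and the thin layer `[r0,b]`. -/
structure Layer (C n η δ b : ℝ) (M VA VB : ℝ → ℝ) (s0 r0 m1 : ℝ) : Prop where
  hs0 : 0 < s0
  hsr : s0 + η ≤ r0
  hr : r0 ≤ b
  hδ : b - r0 ≤ δ
  hbC : b ≤ C
  hm1 : 0 < m1
  hM : ∀ x ∈ Icc s0 b, m1 ≤ M x ∧ M x ≤ C * m1
  hV : ∀ r ∈ Ioc 0 r0, n / C ≤ VA r - VB r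

/-- CLOSE I. -/
theorem close_I {C : ℝ} (hC : 1 ≤ C) : ∃ δ : ℝ, 0 < δ ∧ ∀ η : ℝ, 0 < η →
    ∃ n0 K0 ε : ℝ, 1 ≤ n0 ∧ 1 ≤ K0 ∧ 0 < ε ∧ ε ≤ 1 ∧
    ∀ {c0 : ℝ} {μ : ℂ} {M X VA VB M' X' VA' VB' : ℝ → ℝ} {A B A1 B1 A2 B2 : ℝ → ℂ}
      {b n L κ err s0 r0 m1 : ℝ},
      SysOn c0 μ M X VA VB M' X' VA' VB' A B A1 B1 A2 B2 b →
      Coef C n L b X VA VB X' VA' VB' → 1 / C ≤ c0 → c0 ≤ C → |μ.re| ≤ C →
      Layer C n η δ b M VA VB s0 r0 m1 → n0 ≤ n → K0 ≤ κ → ‖μ + c0‖ ≤ κ ^ 2 →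
      0 ≤ err →
      SU b M A1 B1 ≤ C * κ ^ 2 * SU b M A B + err →
      SV b M A1 B1 ≤ C * κ ^ 2 * SV b M A B + err →
      κ ^ 2 * err ≤ ε * (En b M VB A B A1 B1 + κ ^ 2 * (SU b M A B + SV b M A B)) →
      ((κ ^ 2 * SU b M A B ≤ ε * (En b M VB A B A1 B1 + κ ^ 2 * (SU b M A B + SV b M A B)) ∧
          (κ ^ 2 * SV b M A B ≤ ε * (En b M VB A B A1 B1 + κ ^ 2 * (SU b M A B + SV b M A B)) ∨
            (κ * SV b M A B ≤ C * (|FV b M A B A1 B1| + err) ∧ κ ^ 2 ≤ C * ‖μ + c0‖))) ∨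
        (κ ^ 2 * SV b M A B ≤ ε * (En b M VB A B A1 B1 + κ ^ 2 * (SU b M A B + SV b M A B)) ∧
          (κ * SU b M A B ≤ C * (|FU b M A B A1 B1| + err) ∧ κ ^ 2 ≤ C * ‖μ + c0‖))) →
      En b M VB A B A1 B1 = 0 ∧ SU b M A B = 0 ∧ SV b M A B = 0 := by
  have hC0 : 0 < C := by linarith
  set C' : ℝ := 4 * C ^ 4 with hC'
  have hCC4 : C ≤ C ^ 4 := by
    calc C = C ^ 1 := (pow_one C).symm
      _ ≤ C ^ 4 := pow_le_pow_right₀ hC (by norm_num)
  have hC2C4 : C ^ 2 ≤ C ^ 4 := pow_le_pow_right₀ hC (by norm_num)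
  have hC'1 : 1 ≤ C' := by rw [hC']; linarith
  have hCC' : C ≤ C' := by rw [hC']; linarith [hCC4, hC0]
  have hC4C2 : 4 * C ^ 2 ≤ C' := by rw [hC']; linarith
  have hC'0 : 0 < C' := by linarith
  obtain ⟨G, θ, hG1, hθ, hsm⟩ := small_const hC'1
  refine ⟨θ / (2 * C ^ 2), by positivity, fun η hη => ?_⟩
  obtain ⟨n0, K0, ε, hn0, hK0, hε0, hε1, hsmall⟩ := hsm (C + 2 * C ^ 3 / η) (by positivity)
  refine ⟨n0, K0, ε, hn0, hK0, hε0, hε1, ?_⟩
  intro c0 μ M X VA VB M' X' VA' VB' A B A1 B1 A2 B2 b n L κ err s0 r0 m1 h hc hc0 hc0' hμ hly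
    hn hκ hν herr0 hTu hTv herr hd
  have hκ1 : 1 ≤ κ := by linarith
  have hκ0 : 0 < κ := by linarith
  have hn1 : 1 ≤ n := by linarith
  have hG0 : 0 < G := by linarith
  have hsc := hsmall n κ hn hκ
  obtain ⟨su, sv⟩ := SU_nonneg h A B
  obtain ⟨tu, tv⟩ := SU_nonneg h A1 B1
  have hE0 := En_nonneg h hc
  have ia := I1_nonneg h A
  have ib := I1_nonneg h B
  have hz := Zc_le h
  have hz0 := norm_nonneg (Zc b M A B)
  have i1 := ineq_h1 h hc hc0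
  obtain ⟨i2, i3⟩ := interior_all h hc hc0 hc0' hκ1 rfl
  have i4 := ineq_h4 h hc hly.hs0 hη hly.hsr hly.hr hly.hδ hly.hbC hly.hm1 hly.hM hly.hV
  have i5 := mor_all h hc hc0 hc0' hμ hκ1 hν hG0
  have i6 := flux_all h hc hμ
  have fu := abs_FU_le b (h.Mpos b ⟨h.hb, le_rfl⟩).le A B A1 B1 hκ0
  have fv := abs_FV_le b (h.Mpos b ⟨h.hb, le_rfl⟩).le A B A1 B1 hκ0
  generalize hEd : En b M VB A B A1 B1 = E at *
  generalize hSud : SU b M A B = Su at *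
  generalize hSvd : SV b M A B = Sv at *
  generalize hTud : SU b M A1 B1 = Tu at *
  generalize hTvd : SV b M A1 B1 = Tv at *
  generalize hFud : FU b M A B A1 B1 = Fu at *
  generalize hFvd : FV b M A B A1 B1 = Fv at *
  generalize hzd : ‖Zc b M A B‖ = z at *
  generalize hpad : I2 b M (fun r => VA r - VB r) A = pa at *
  generalize hiad : I1 b M A = iA at *
  generalize hibd : I1 b M B = iB at *
  generalize hνd : ‖μ + c0‖ = ν at *
  have hν0 : 0 ≤ ν := by rw [← hνd]; exact norm_nonneg _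
  set X0 := E + κ ^ 2 * (Su + Sv) with hX0
  have hS0 : 0 ≤ Su + Sv := by linarith
  have hX00 : 0 ≤ X0 := by positivity
  have hκ2 : 1 ≤ κ ^ 2 := one_le_pow₀ hκ1
  have herrle : err ≤ ε * X0 := by
    have : 1 * err ≤ κ ^ 2 * err := mul_le_mul_of_nonneg_right hκ2 herr0
    linarith
  have herrX : err ≤ X0 := by
    have : ε * X0 ≤ 1 * X0 := mul_le_mul_of_nonneg_right hε1 hX00
    linarith
  have hκSu : 0 ≤ κ ^ 2 * Su := by positivity
  have hκSv : 0 ≤ κ ^ 2 * Sv := by positivity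
  have hTu' : Tu ≤ C' * (κ ^ 2 * Su) + err := by
    have := mul_le_mul_of_nonneg_right hCC' hκSu
    have e : C * κ ^ 2 * Su = C * (κ ^ 2 * Su) := by ring
    linarith
  have hTv' : Tv ≤ C' * (κ ^ 2 * Sv) + err := by
    have := mul_le_mul_of_nonneg_right hCC' hκSv
    have e : C * κ ^ 2 * Sv = C * (κ ^ 2 * Sv) := by ring
    linarith
  have hT : Tu + Tv ≤ C' * (κ ^ 2 * (Su + Sv)) + 2 * err := by
    have e : C' * (κ ^ 2 * (Su + Sv)) = C' * (κ ^ 2 * Su) + C' * (κ ^ 2 * Sv) := by ring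
    linarith
  have i1' : iA + iB ≤ C' * (E + (Su + Sv)) := by
    have : C ^ 4 * (E + (Su + Sv)) ≤ C' * (E + (Su + Sv)) :=
      mul_le_mul_of_nonneg_right (by rw [hC']; linarith [pow_pos hC0 4]) (by linarith)
    linarith
  have hD0 : 0 ≤ C + 2 * C ^ 3 / η := by positivity
  have i4' : iA ≤ θ * E + (C + 2 * C ^ 3 / η) / n * pa := by
    have e : 2 * C ^ 2 * (θ / (2 * C ^ 2)) = θ := by field_simp
    rw [e] at i4
    exact i4
  obtain ⟨j1, j2, j3, j4⟩ := close_aux1 (C := C') (θ := θ) (D := C + 2 * C ^ 3 / η) (n := n)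
    (κ := κ) (ν := ν) (E := E) (S := Su + Sv) (T := Tu + Tv) (ia := iA) (ib := iB) (pa := pa)
    (z := z) (X := X0) (err := err) hC'1 hθ.le hD0 hn1 hκ1 hE0 hS0 herrX hX0 hz i1' i2 i3 i4' hT
  have hκSX : κ ^ 2 * (Su + Sv) ≤ X0 := by linarith
  -- the oscillating component
  have osc : ∀ {Su Sv Tu Fu Fv : ℝ}, 0 ≤ Su → 0 ≤ Sv → 0 ≤ Tu →
      κ ^ 2 * (Su + Sv) ≤ X0 → Tu ≤ C' * (κ ^ 2 * Su) + err →
      |Fu + Fv| ≤ C * (Su + Sv) + 4 * C * z → |Fu| ≤ κ * Su + Tu / κ →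
      κ ^ 2 * Su ≤ ε * X0 → κ * Sv ≤ C * (|Fv| + err) → κ ^ 2 ≤ C * ν →
      κ ^ 2 * Sv ≤ (C' * ((C' + 3) * ε + (1 + 9 * C' ^ 3) / κ)) * X0 := by
    intro Su Sv Tu Fu Fv hsu hsv htu hX hTu hF hFu hEv hOs hκν
    refine close_aux2 (C := C') (κ := κ) (ν := ν) (ε := ε) (Su := Su) (Sv := Sv) (Tu := Tu)
      (S := Su + Sv) (z := z) (X := X0) (err := err) hC'1 hκ1 hz0 (by linarith) hX j2 hTu herr
      herr0 hEv ?_ ?_
    · have g1 : |Fv| ≤ |Fu| + |Fu + Fv| := by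
        have e : Fv = (Fu + Fv) - Fu := by ring
        calc |Fv| = |(Fu + Fv) - Fu| := by rw [← e]
          _ ≤ |Fu + Fv| + |Fu| := abs_sub _ _
          _ = _ := by ring
      have hTuκ : 0 ≤ Tu / κ := by positivity
      have g2 : |Fv| + err ≤ κ * Su + Tu / κ + C * (Su + Sv) + 4 * C * z + err := by linarith
      have g3 := mul_le_mul_of_nonneg_left g2 hC0.le
      have hκSu : 0 ≤ κ * Su := by positivity
      have g4 : C * (κ * Su + Tu / κ + C * (Su + Sv) + 4 * C * z + err) ≤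
          4 * C ^ 2 * (κ * Su + Tu / κ + (Su + Sv) + z + err) := by
        have hCC : C ≤ C ^ 2 := by
          have := mul_le_mul_of_nonneg_left hC hC0.le
          linarith
        have r1 := mul_le_mul_of_nonneg_right hCC (by linarith : 0 ≤ κ * Su + Tu / κ + err)
        have r2 : 0 ≤ C ^ 2 * (κ * Su + Tu / κ + err) := by positivity
        have r3 : 0 ≤ C ^ 2 * (Su + Sv) := by positivity
        have r4 : 0 ≤ C ^ 2 * z := by positivity
        have e1 : C * (κ * Su + Tu / κ + C * (Su + Sv) + 4 * C * z + err) =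
          C * (κ * Su + Tu / κ + err) + C ^ 2 * (Su + Sv) + 4 * (C ^ 2 * z) := by ring
        have e2 : 4 * C ^ 2 * (κ * Su + Tu / κ + (Su + Sv) + z + err) =
          4 * (C ^ 2 * (κ * Su + Tu / κ + err)) + 4 * (C ^ 2 * (Su + Sv)) + 4 * (C ^ 2 * z) := by
          ring
        rw [e1, e2]
        linarith
      have g5 : 4 * C ^ 2 * (κ * Su + Tu / κ + (Su + Sv) + z + err) ≤
          C' * (κ * Su + Tu / κ + (Su + Sv) + z + err) :=
        mul_le_mul_of_nonneg_right hC4C2 (by linarith)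
      linarith
    · have := mul_le_mul_of_nonneg_right hCC' hν0
      linarith
  set s1 := ε + C' * ((C' + 3) * ε + (1 + 9 * C' ^ 3) / κ) with hs1
  have hs1pos : 0 ≤ C' * ((C' + 3) * ε + (1 + 9 * C' ^ 3) / κ) := by positivity
  have hs10 : 0 ≤ s1 := by rw [hs1]; linarith
  have hεs1 : ε * X0 ≤ s1 * X0 := mul_le_mul_of_nonneg_right (by rw [hs1]; linarith) hX00
  have hs1' : C' * ((C' + 3) * ε + (1 + 9 * C' ^ 3) / κ) * X0 ≤ s1 * X0 :=
    mul_le_mul_of_nonneg_right (by rw [hs1]; linarith) hX00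
  have h8 : κ ^ 2 * Su ≤ s1 * X0 ∧ κ ^ 2 * Sv ≤ s1 * X0 := by
    rcases hd with ⟨hu, hv | ⟨hv1, hv2⟩⟩ | ⟨hv, hu1, hu2⟩
    · exact ⟨hu.trans hεs1, hv.trans hεs1⟩
    · exact ⟨hu.trans hεs1, (osc su sv tu hκSX hTu' i6 fu hu hv1 hv2).trans hs1'⟩
    · refine ⟨(osc sv su tv (by rw [add_comm]; exact hκSX) hTv' ?_ fv hv hu1 hu2).trans hs1',
        hv.trans hεs1⟩
      rw [add_comm Fv Fu, add_comm Sv Su]
      exact i6
  have fin := close_aux3 (C := C') (θ := θ) (D := C + 2 * C ^ 3 / η) (G := G) (n := n) (κ := κ)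
    (ε := ε) (s1 := s1) (E := E) (Su := Su) (Sv := Sv) (T := Tu + Tv) (ia := iA) (ib := iB)
    (pa := pa) (X := X0) (err := err) hC'1 hG1 hn1 hX00 (by linarith) hX0 hs10 hε0.le j1 ia j3 j4
    hT herrle h8.1 h8.2 i5
  have fin2 : X0 ≤ 1 / 2 * X0 := fin.trans (mul_le_mul_of_nonneg_right hsc hX00)
  have hX0z : X0 = 0 := by linarith
  have hκS : κ ^ 2 * (Su + Sv) = 0 := by
    have : 0 ≤ κ ^ 2 * (Su + Sv) := by positivity
    linarith
  have hSS : Su + Sv = 0 := by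
    rcases mul_eq_zero.1 hκS with h1 | h1
    · linarith
    · exact h1
  exact ⟨by linarith, by linarith, by linarith⟩

end Vale.Agent.P139.H657
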