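import Mathlib

/-!
Closing lemmas (pure real-number inequalities) for the high-frequency exclusion [S1].
-/

namespace Vale.Agent.P139.H657

theorem basic1 {κ S X : ℝ} (hκ : 1 ≤ κ) (hS : 0 ≤ S) (h : κ ^ 2 * S ≤ X) :
    κ * S ≤ X / κ ∧ S ≤ X / κ ∧ X / κ ≤ X ∧ 0 ≤ X := by
  have hκ0 : 0 < κ := by linarith
  have hX : 0 ≤ X := le_trans (by positivity) h
  have h1 : κ * S ≤ X / κ := by rw [le_div_iff₀ hκ0]; nlinarith
  have h2 : S ≤ κ * S := by nlinarith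
  refine ⟨h1, h2.trans h1, ?_, hX⟩
  rw [div_le_iff₀ hκ0]; nlinarith

/-- Bounds of the interior quantities by `X = E + κ² S`. -/
theorem close_aux1 {C θ D n κ ν E S T ia ib pa z X err : ℝ}
    (hC : 1 ≤ C) (hθ : 0 ≤ θ) (hD : 0 ≤ D) (hn : 1 ≤ n) (hκ : 1 ≤ κ)
    (hE : 0 ≤ E) (hS : 0 ≤ S) (herr : err ≤ X)
    (hX : X = E + κ ^ 2 * S)
    (h0 : z ≤ ia + ib)
    (h1 : ia + ib ≤ C * (E + S))
    (h2 : ν * z ≤ C * (E + ia + ib + κ * S + T / κ))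
    (h3 : pa ≤ C * (ν * z + z + E + ia + ib + κ * S + T / κ))
    (h4 : ia ≤ θ * E + D / n * pa)
    (h6 : T ≤ C * (κ ^ 2 * S) + 2 * err) :
    ia + ib ≤ 2 * C * X ∧ ν * z ≤ 9 * C ^ 2 * X ∧ pa ≤ 20 * C ^ 3 * X ∧
      ia ≤ (θ + D * (20 * C ^ 3) / n) * X := by
  have hκ0 : 0 < κ := by linarith
  have hn0 : 0 < n := by linarith
  have hC0 : 0 < C := by linarith
  have hS2 : 0 ≤ κ ^ 2 * S := by positivity
  have hSX' : κ ^ 2 * S ≤ X := by linarith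
  obtain ⟨b1, b2, b3, b4⟩ := basic1 hκ hS hSX'
  have hEX : E ≤ X := by linarith
  have i1 : ia + ib ≤ 2 * C * X := by
    have := mul_le_mul_of_nonneg_left (show E + S ≤ 2 * X by linarith) hC0.le
    linarith
  have hTX : T ≤ (C + 2) * X := by
    have := mul_le_mul_of_nonneg_left hSX' hC0.le
    linarith
  have hTκ : T / κ ≤ (C + 2) * X := by
    have h : (C + 2) * X / κ ≤ (C + 2) * X :=
      div_le_self (by positivity) hκ
    exact (div_le_div_of_nonneg_right hTX hκ0.le).trans h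
  have hCC : C ≤ C ^ 2 := by nlinarith
  have hCC1 : 1 ≤ C ^ 2 := by nlinarith
  have hCX : X ≤ C * X := by nlinarith
  have i2 : ν * z ≤ 9 * C ^ 2 * X := by
    have e1 : E + ia + ib + κ * S + T / κ ≤ 9 * C * X - C * X := by
      have : κ * S ≤ X := b1.trans b3
      linarith
    have e2 := mul_le_mul_of_nonneg_left e1 hC0.le
    have e3 : 0 ≤ C * (C * X) := by positivity
    calc ν * z ≤ _ := h2
      _ ≤ _ := e2
      _ = 9 * C ^ 2 * X - C * (C * X) := by ring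
      _ ≤ _ := by linarith
  have i3 : pa ≤ 20 * C ^ 3 * X := by
    have hCX2 : C * X ≤ C ^ 2 * X := mul_le_mul_of_nonneg_right hCC b4
    have e1 : ν * z + z + E + ia + ib + κ * S + T / κ ≤ 20 * C ^ 2 * X := by
      have : κ * S ≤ X := b1.trans b3
      linarith
    have e2 := mul_le_mul_of_nonneg_left e1 hC0.le
    calc pa ≤ _ := h3
      _ ≤ _ := e2
      _ = _ := by ring
  refine ⟨i1, i2, i3, ?_⟩
  have e1 : θ * E ≤ θ * X := mul_le_mul_of_nonneg_left hEX hθ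
  have e2 : D / n * pa ≤ D / n * (20 * C ^ 3 * X) :=
    mul_le_mul_of_nonneg_left i3 (by positivity)
  have e3 : D / n * (20 * C ^ 3 * X) = D * (20 * C ^ 3) / n * X := by ring
  linarith

/-- Oscillatory component: bound of `κ² S_v` by the flux identity. -/
theorem close_aux2 {C κ ν ε Su Sv Tu S z X err : ℝ}
    (hC : 1 ≤ C) (hκ : 1 ≤ κ) (hz : 0 ≤ z) (hS : 0 ≤ S) (hX : κ ^ 2 * S ≤ X)
    (hνz : ν * z ≤ 9 * C ^ 2 * X)
    (h6u : Tu ≤ C * (κ ^ 2 * Su) + err)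
    (herr : κ ^ 2 * err ≤ ε * X) (herr0 : 0 ≤ err)
    (h8 : κ ^ 2 * Su ≤ ε * X)
    (h9 : κ * Sv ≤ C * (κ * Su + Tu / κ + S + z + err)) (h10 : κ ^ 2 ≤ C * ν) :
    κ ^ 2 * Sv ≤ C * ((C + 3) * ε + (1 + 9 * C ^ 3) / κ) * X := by
  have hκ0 : 0 < κ := by linarith
  have hC0 : 0 < C := by linarith
  obtain ⟨b1, b2, b3, b4⟩ := basic1 hκ hS hX
  have hκ2 : 1 ≤ κ ^ 2 := by nlinarith
  have e1 : κ * err ≤ ε * X := by
    have : κ * err ≤ κ ^ 2 * err := mul_le_mul_of_nonneg_right (by nlinarith) herr0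
    linarith
  have e1' : err ≤ ε * X := by
    have : 1 * err ≤ κ ^ 2 * err := mul_le_mul_of_nonneg_right hκ2 herr0
    linarith
  have f1 : κ * z ≤ 9 * C ^ 3 / κ * X := by
    have g1 : κ ^ 2 * z ≤ C * (9 * C ^ 2 * X) := by
      calc κ ^ 2 * z ≤ C * ν * z := mul_le_mul_of_nonneg_right h10 hz
        _ = C * (ν * z) := by ring
        _ ≤ _ := mul_le_mul_of_nonneg_left hνz hC0.le
    rw [div_mul_eq_mul_div, le_div_iff₀ hκ0]
    calc κ * z * κ = κ ^ 2 * z := by ring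
      _ ≤ _ := g1
      _ = _ := by ring
  have f2 : Tu ≤ C * (ε * X) + ε * X := by
    have := mul_le_mul_of_nonneg_left h8 hC0.le
    linarith
  have f3 : κ * (κ * Sv) ≤ κ * (C * (κ * Su + Tu / κ + S + z + err)) :=
    mul_le_mul_of_nonneg_left h9 hκ0.le
  have f4 : κ * (C * (κ * Su + Tu / κ + S + z + err)) =
      C * (κ ^ 2 * Su + Tu + κ * S + κ * z + κ * err) := by
    field_simp
  have f5 : κ ^ 2 * Su + Tu + κ * S + κ * z + κ * err ≤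
      ((C + 3) * ε + (1 + 9 * C ^ 3) / κ) * X := by
    have g2 : ((C + 3) * ε + (1 + 9 * C ^ 3) / κ) * X =
      C * (ε * X) + 3 * (ε * X) + (X / κ + 9 * C ^ 3 / κ * X) := by ring
    rw [g2]
    linarith
  have f6 := mul_le_mul_of_nonneg_left f5 hC0.le
  calc κ ^ 2 * Sv = κ * (κ * Sv) := by ring
    _ ≤ _ := f3
    _ = _ := f4
    _ ≤ _ := f6
    _ = _ := by ring

/-- Final step: Morawetz inequality. -/
theorem close_aux3 {C θ D G n κ ε s1 E Su Sv T ia ib pa X err : ℝ}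
    (hC : 1 ≤ C) (hG : 1 ≤ G) (hn : 1 ≤ n)
    (hX0 : 0 ≤ X) (hEX : E ≤ X) (hX : X = E + κ ^ 2 * (Su + Sv))
    (hs1 : 0 ≤ s1) (hε : 0 ≤ ε)
    (i1 : ia + ib ≤ 2 * C * X) (hia : 0 ≤ ia) (i3 : pa ≤ 20 * C ^ 3 * X)
    (i4 : ia ≤ (θ + D * (20 * C ^ 3) / n) * X)
    (h6 : T ≤ C * (κ ^ 2 * (Su + Sv)) + 2 * err)
    (h7 : err ≤ ε * X)
    (h8u : κ ^ 2 * Su ≤ s1 * X) (h8v : κ ^ 2 * Sv ≤ s1 * X)
    (h5 : E ≤ C * (κ ^ 2 * (Su + Sv) + T + pa / n + G * ia + (E + ib) / G)) :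
    X ≤ (6 * C ^ 2 * s1 + 2 * C * ε +
      C * (20 * C ^ 3 / n + G * (θ + D * (20 * C ^ 3) / n) + (1 + 2 * C) / G)) * X := by
  have hn0 : 0 < n := by linarith
  have hG0 : 0 < G := by linarith
  have hC0 : 0 < C := by linarith
  have hκS : κ ^ 2 * (Su + Sv) ≤ 2 * (s1 * X) := by
    have : κ ^ 2 * (Su + Sv) = κ ^ 2 * Su + κ ^ 2 * Sv := by ring
    linarith
  have hT : T ≤ C * (2 * (s1 * X)) + 2 * (ε * X) := by
    have := mul_le_mul_of_nonneg_left hκS hC0.le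
    linarith
  have e1 : pa / n ≤ 20 * C ^ 3 / n * X := by
    rw [div_mul_eq_mul_div]; exact div_le_div_of_nonneg_right i3 hn0.le
  have e2 : G * ia ≤ G * ((θ + D * (20 * C ^ 3) / n) * X) :=
    mul_le_mul_of_nonneg_left i4 hG0.le
  have e3 : (E + ib) / G ≤ (1 + 2 * C) / G * X := by
    rw [div_mul_eq_mul_div]; refine div_le_div_of_nonneg_right ?_ hG0.le
    linarith
  have e4 : E ≤ C * (2 * (s1 * X) + (C * (2 * (s1 * X)) + 2 * (ε * X)) + 20 * C ^ 3 / n * X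
      + G * ((θ + D * (20 * C ^ 3) / n) * X) + (1 + 2 * C) / G * X) := by
    refine h5.trans (mul_le_mul_of_nonneg_left ?_ hC0.le)
    linarith
  have h20 : 0 ≤ s1 * X := by positivity
  have hCC : C ≤ C ^ 2 := by nlinarith
  have hCC1 : 1 ≤ C ^ 2 := by nlinarith
  have h22 : C * (s1 * X) ≤ C ^ 2 * (s1 * X) := mul_le_mul_of_nonneg_right hCC h20
  have h23 : 1 * (s1 * X) ≤ C ^ 2 * (s1 * X) := mul_le_mul_of_nonneg_right hCC1 h20
  calc X = E + κ ^ 2 * (Su + Sv) := hX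
    _ ≤ C * (2 * (s1 * X) + (C * (2 * (s1 * X)) + 2 * (ε * X)) + 20 * C ^ 3 / n * X
      + G * ((θ + D * (20 * C ^ 3) / n) * X) + (1 + 2 * C) / G * X) + 2 * (s1 * X) :=
        add_le_add e4 hκS
    _ = (2 * C ^ 2 * (s1 * X) + 2 * (C * (s1 * X)) + 2 * (1 * (s1 * X))) + 2 * C * ε * X +
      C * (20 * C ^ 3 / n + G * (θ + D * (20 * C ^ 3) / n) + (1 + 2 * C) / G) * X := by ring
    _ ≤ (6 * C ^ 2 * (s1 * X)) + 2 * C * ε * X +
      C * (20 * C ^ 3 / n + G * (θ + D * (20 * C ^ 3) / n) + (1 + 2 * C) / G) * X := by linarith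
    _ = _ := by ring

end Vale.Agent.P139.H657
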