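import Vale.Agent.P139.H498.Int4

/-!
Interior inequalities of the high frequency exclusion [S1], from the integrated identities of
`H498.Int4`.
-/

open Complex Set MeasureTheory
open scoped ComplexConjugate

namespace Vale.Agent.P139.H657

open Vale.Agent.P139.H498

/-- `∫ M |A|²`. -/
noncomputable def I1 (b : ℝ) (M : ℝ → ℝ) (A : ℝ → ℂ) : ℝ :=
  ∫ r in (0 : ℝ)..b, M r * normSq (A r)

/-- `∫ M V |A|²`. -/
noncomputable def I2 (b : ℝ) (M V : ℝ → ℝ) (A : ℝ → ℂ) : ℝ :=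
  ∫ r in (0 : ℝ)..b, M r * (V r * normSq (A r))

/-- `∫ M A conj B`. -/
noncomputable def Zc (b : ℝ) (M : ℝ → ℝ) (A B : ℝ → ℂ) : ℂ :=
  ∫ r in (0 : ℝ)..b, (M r : ℂ) * (A r * conj (B r))

/-- The energy. -/
noncomputable def En (b : ℝ) (M VB : ℝ → ℝ) (A B A1 B1 : ℝ → ℂ) : ℝ :=
  I1 b M A1 + I1 b M B1 + I2 b M VB A + I2 b M VB B

/-- Hypotheses on the coefficients. -/
structure Coef (C n L b : ℝ) (X VA VB X' VA' VB' : ℝ → ℝ) : Prop where
  hC : 1 ≤ C
  hn : 1 ≤ n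
  hL : 0 ≤ L
  hVB : ∀ r ∈ Ioc 0 b, VB r = L / r ^ 2
  hVB' : ∀ r ∈ Ioc 0 b, VB' r = -(2 * L / r ^ 3)
  hV : ∀ r ∈ Ioc 0 b, 0 ≤ VA r - VB r
  hV' : ∀ r ∈ Ioc 0 b, VA' r - VB' r ≤ C / n * (VA r - VB r)
  hX' : ∀ r ∈ Ioc 0 b, 1 / C ≤ X' r
  hX1 : ∀ r ∈ Ioc 0 b, r / C ≤ X r
  hX2 : ∀ r ∈ Ioc 0 b, X r ≤ C

theorem int_nonneg {b : ℝ} (hb : 0 < b) {φ : ℝ → ℝ} (h : ∀ r ∈ Ioc 0 b, 0 ≤ φ r) :
    0 ≤ ∫ r in (0 : ℝ)..b, φ r := by
  rw [intervalIntegral.integral_of_le hb.le]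
  exact setIntegral_nonneg measurableSet_Ioc h

theorem int_mono {b : ℝ} (hb : 0 < b) {φ ψ : ℝ → ℝ} (h1 : BC b φ) (h2 : BC b ψ)
    (h : ∀ r ∈ Ioc 0 b, φ r ≤ ψ r) : ∫ r in (0 : ℝ)..b, φ r ≤ ∫ r in (0 : ℝ)..b, ψ r :=
  intervalIntegral.integral_mono_on_of_le_Ioo hb.le (h1.intble hb) (h2.intble hb)
    fun r hr => h r ⟨hr.1, hr.2.le⟩

theorem norm_int_le {b : ℝ} (hb : 0 < b) {φ : ℝ → ℂ} {ψ : ℝ → ℝ} (h2 : BC b ψ)
    (h : ∀ r ∈ Ioc 0 b, ‖φ r‖ ≤ ψ r) : ‖∫ r in (0 : ℝ)..b, φ r‖ ≤ ∫ r in (0 : ℝ)..b, ψ r :=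
  intervalIntegral.norm_integral_le_of_norm_le hb.le (Filter.Eventually.of_forall h)
    (h2.intble hb)

theorem abs_int_le {b : ℝ} (hb : 0 < b) {φ : ℝ → ℝ} {ψ : ℝ → ℝ} (h2 : BC b ψ)
    (h : ∀ r ∈ Ioc 0 b, |φ r| ≤ ψ r) : |∫ r in (0 : ℝ)..b, φ r| ≤ ∫ r in (0 : ℝ)..b, ψ r := by
  rw [← Real.norm_eq_abs]
  exact intervalIntegral.norm_integral_le_of_norm_le hb.le
    (Filter.Eventually.of_forall fun r hr => h r hr) (h2.intble hb)

theorem conj_int {b : ℝ} (hb : 0 < b) (φ : ℝ → ℂ) :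
    conj (∫ r in (0 : ℝ)..b, φ r) = ∫ r in (0 : ℝ)..b, conj (φ r) := by
  rw [intervalIntegral.integral_of_le hb.le, intervalIntegral.integral_of_le hb.le]
  exact integral_conj.symm

theorem norm_sq_eq (z : ℂ) : ‖z‖ ^ 2 = normSq z := (Complex.normSq_eq_norm_sq z).symm

/-- `|x y| ≤ (G |x|² + |y|²/G)/2`. -/
theorem mul_le_wt {x y G : ℝ} (hG : 0 < G) : x * y ≤ G / 2 * x ^ 2 + 1 / (2 * G) * y ^ 2 := by
  have h : 0 ≤ (G * x - y) ^ 2 := sq_nonneg _
  have e : G / 2 * x ^ 2 + 1 / (2 * G) * y ^ 2 - x * y = (G * x - y) ^ 2 / (2 * G) := by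
    field_simp
    ring
  have : 0 ≤ (G * x - y) ^ 2 / (2 * G) := by positivity
  linarith

theorem re_mul_conj_le {x y : ℂ} {G : ℝ} (hG : 0 < G) :
    |(x * conj y).re| ≤ G / 2 * normSq x + 1 / (2 * G) * normSq y := by
  refine (Complex.abs_re_le_norm _).trans ?_
  rw [norm_mul, Complex.norm_conj, ← norm_sq_eq, ← norm_sq_eq]
  exact mul_le_wt hG

theorem norm_mul_conj_le {x y : ℂ} {G : ℝ} (hG : 0 < G) :
    ‖x * conj y‖ ≤ G / 2 * normSq x + 1 / (2 * G) * normSq y := by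
  rw [norm_mul, Complex.norm_conj, ← norm_sq_eq, ← norm_sq_eq]
  exact mul_le_wt hG

theorem normSq_D0_le {C c0 x : ℝ} {a a1 : ℂ} (hx : |x| ≤ C) (hc : |c0| ≤ C) :
    normSq (x * a1 + c0 * a) ≤ 2 * C ^ 2 * (normSq a1 + normSq a) := by
  rw [← norm_sq_eq, ← norm_sq_eq, ← norm_sq_eq]
  have h1 : ‖(x : ℂ) * a1 + c0 * a‖ ≤ C * (‖a1‖ + ‖a‖) := by
    refine (norm_add_le _ _).trans ?_
    rw [norm_mul, norm_mul, Complex.norm_real, Complex.norm_real, Real.norm_eq_abs,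
      Real.norm_eq_abs]
    have := mul_le_mul_of_nonneg_right hx (norm_nonneg a1)
    have := mul_le_mul_of_nonneg_right hc (norm_nonneg a)
    linarith
  have hC : 0 ≤ C := (abs_nonneg _).trans hx
  calc ‖(x : ℂ) * a1 + c0 * a‖ ^ 2 ≤ (C * (‖a1‖ + ‖a‖)) ^ 2 := by
        gcongr
    _ = C ^ 2 * (‖a1‖ + ‖a‖) ^ 2 := by ring
    _ ≤ C ^ 2 * (2 * (‖a1‖ ^ 2 + ‖a‖ ^ 2)) := by
        refine mul_le_mul_of_nonneg_left ?_ (sq_nonneg C)
        nlinarith [sq_nonneg (‖a1‖ - ‖a‖)]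
    _ = _ := by ring

section

variable {c0 : ℝ} {μ : ℂ} {M X VA VB M' X' VA' VB' : ℝ → ℝ} {A B A1 B1 A2 B2 : ℝ → ℂ} {b : ℝ}
variable {C n L : ℝ}

section basic
variable (h : SysOn c0 μ M X VA VB M' X' VA' VB' A B A1 B1 A2 B2 b)
include h

theorem I1_nonneg (F : ℝ → ℂ) : 0 ≤ I1 b M F :=
  int_nonneg h.hb fun r hr => mul_nonneg (h.Mpos r hr).le (normSq_nonneg _)

theorem I2_nonneg {V : ℝ → ℝ} (hV : ∀ r ∈ Ioc 0 b, 0 ≤ V r) (F : ℝ → ℂ) : 0 ≤ I2 b M V F :=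
  int_nonneg h.hb fun r hr => mul_nonneg (h.Mpos r hr).le
    (mul_nonneg (hV r hr) (normSq_nonneg _))

theorem bcMVBA : BC b (fun r => M r * (VB r * normSq (A r))) :=
  (h.bcM.mul (h.bcVB.mul h.bcA.normSq_)).congr fun r hr => by
    have := hr.1.ne'
    field_simp

theorem bcMVdA : BC b (fun r => M r * ((VA r - VB r) * normSq (A r))) :=
  (h.bcMVA.sub (bcMVBA h)).congr fun r hr => by ring

theorem Zc_le : ‖Zc b M A B‖ ≤ I1 b M A + I1 b M B := by
  have hb := h.hb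
  refine (norm_int_le (ψ := fun r => M r * normSq (A r) + M r * normSq (B r)) hb
    (h.bcMA.add h.bcMB) fun r hr => ?_).trans ?_
  · rw [norm_mul, Complex.norm_real, Real.norm_eq_abs, abs_of_pos (h.Mpos r hr)]
    have h1 := norm_mul_conj_le (x := A r) (y := B r) one_pos
    have h2 := normSq_nonneg (A r)
    have h3 := normSq_nonneg (B r)
    have h4 := (h.Mpos r hr).le
    have h5 : ‖A r * conj (B r)‖ ≤ normSq (A r) + normSq (B r) := by linarith
    have := mul_le_mul_of_nonneg_left h5 h4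
    linarith
  · rw [intervalIntegral.integral_add (h.bcMA.intble hb) (h.bcMB.intble hb)]
    exact le_rfl

end basic

/-- Bounds on `X` following from `Coef`. -/
theorem Coef.absX (hc : Coef C n L b X VA VB X' VA' VB') {r : ℝ} (hr : r ∈ Ioc 0 b) :
    |X r| ≤ C := by
  have h1 := hc.hX1 r hr
  have h2 := hc.hX2 r hr
  have h3 : 0 ≤ r / C := div_nonneg hr.1.le (by linarith [hc.hC])
  rw [abs_of_nonneg (by linarith)]
  exact h2

theorem Coef.VBnonneg (hc : Coef C n L b X VA VB X' VA' VB') {r : ℝ} (hr : r ∈ Ioc 0 b) :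
    0 ≤ VB r := by
  rw [hc.hVB r hr]
  have := hc.hL
  positivity

section

variable (h : SysOn c0 μ M X VA VB M' X' VA' VB' A B A1 B1 A2 B2 b)
variable (hc : Coef C n L b X VA VB X' VA' VB')
include h hc

/-- `∫ M D0A conj B` is bounded by the energy terms. -/
theorem D0A_le (hc0 : |c0| ≤ C) :
    ‖∫ r in (0 : ℝ)..b, (M r : ℂ) * ((X r * A1 r + c0 * A r) * conj (B r))‖ ≤
      C ^ 2 * (I1 b M A1 + I1 b M A) + I1 b M B := by
  have hb := h.hb
  refine (norm_int_le (ψ := fun r => C ^ 2 * (M r * normSq (A1 r) + M r * normSq (A r)) +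
    M r * normSq (B r)) hb (((BC.const (C ^ 2)).mul (h.bcMA1.add h.bcMA)).add h.bcMB)
    fun r hr => ?_).trans ?_
  · rw [norm_mul, Complex.norm_real, Real.norm_eq_abs, abs_of_pos (h.Mpos r hr)]
    have h1 := norm_mul_conj_le (x := (X r : ℂ) * A1 r + c0 * A r) (y := B r) one_pos
    have h2 := normSq_D0_le (a := A r) (a1 := A1 r) (hc.absX hr) hc0
    have h3 := normSq_nonneg (B r)
    have h4 := (h.Mpos r hr).le
    have h5 : ‖((X r : ℂ) * A1 r + c0 * A r) * conj (B r)‖ ≤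
        C ^ 2 * (normSq (A1 r) + normSq (A r)) + normSq (B r) := by linarith
    have := mul_le_mul_of_nonneg_left h5 h4
    linarith
  · rw [intervalIntegral.integral_add
      (((BC.const (C ^ 2)).mul (h.bcMA1.add h.bcMA)).intble hb) (h.bcMB.intble hb),
      intervalIntegral.integral_const_mul,
      intervalIntegral.integral_add (h.bcMA1.intble hb) (h.bcMA.intble hb)]
    exact le_rfl

/-- `∫ M D0B conj A` is bounded by the energy terms. -/
theorem D0B_le (hc0 : |c0| ≤ C) :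
    ‖∫ r in (0 : ℝ)..b, (M r : ℂ) * ((X r * B1 r + c0 * B r) * conj (A r))‖ ≤
      C ^ 2 * (I1 b M B1 + I1 b M B) + I1 b M A := by
  have hb := h.hb
  refine (norm_int_le (ψ := fun r => C ^ 2 * (M r * normSq (B1 r) + M r * normSq (B r)) +
    M r * normSq (A r)) hb (((BC.const (C ^ 2)).mul (h.bcMB1.add h.bcMB)).add h.bcMA)
    fun r hr => ?_).trans ?_
  · rw [norm_mul, Complex.norm_real, Real.norm_eq_abs, abs_of_pos (h.Mpos r hr)]
    have h1 := norm_mul_conj_le (x := (X r : ℂ) * B1 r + c0 * B r) (y := A r) one_pos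
    have h2 := normSq_D0_le (a := B r) (a1 := B1 r) (hc.absX hr) hc0
    have h3 := normSq_nonneg (A r)
    have h4 := (h.Mpos r hr).le
    have h5 : ‖((X r : ℂ) * B1 r + c0 * B r) * conj (A r)‖ ≤
        C ^ 2 * (normSq (B1 r) + normSq (B r)) + normSq (A r) := by linarith
    have := mul_le_mul_of_nonneg_left h5 h4
    linarith
  · rw [intervalIntegral.integral_add
      (((BC.const (C ^ 2)).mul (h.bcMB1.add h.bcMB)).intble hb) (h.bcMA.intble hb),
      intervalIntegral.integral_const_mul,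
      intervalIntegral.integral_add (h.bcMB1.intble hb) (h.bcMB.intble hb)]
    exact le_rfl

end

/-- The pairing identities in terms of the named integrals. -/
theorem intA' (h : SysOn c0 μ M X VA VB M' X' VA' VB' A B A1 B1 A2 B2 b) :
    ((I1 b M A1 + I2 b M VB A + I2 b M (fun r => VA r - VB r) A : ℝ) : ℂ)
      + μ * conj (Zc b M A B)
      + ∫ r in (0 : ℝ)..b, (M r : ℂ) * ((X r * B1 r + c0 * B r) * conj (A r))
      = (M b : ℂ) * (A1 b * conj (A b)) := by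
  have hb := h.hb
  rw [← h.intA]
  have e1 : conj (Zc b M A B) = ∫ r in (0 : ℝ)..b, (M r : ℂ) * (B r * conj (A r)) := by
    rw [Zc, conj_int hb]
    congr 1
    funext r
    simp only [map_mul, Complex.conj_ofReal, Complex.conj_conj]
    ring
  have e2 : ((I1 b M A1 + I2 b M VB A + I2 b M (fun r => VA r - VB r) A : ℝ) : ℂ)
      = ∫ r in (0 : ℝ)..b, ((M r * normSq (A1 r) + M r * (VA r * normSq (A r)) : ℝ) : ℂ) := by
    rw [intervalIntegral.integral_ofReal,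
      intervalIntegral.integral_add (h.bcMA1.intble hb) (h.bcMVA.intble hb)]
    congr 1
    rw [I1, I2, I2, add_assoc, ← intervalIntegral.integral_add ((bcMVBA h).intble hb)
      ((bcMVdA h).intble hb)]
    congr 2
    funext r
    ring
  rw [e1, e2, ← intervalIntegral.integral_const_mul, ← intervalIntegral.integral_add,
    ← intervalIntegral.integral_add]
  · congr 1
    funext r
    push_cast
    ring
  · exact (((h.bcMA1.add h.bcMVA).ofReal.add ((BC.const μ).mul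
      (h.bcM0.ofReal.mul (h.bcB.mul h.bcA.conj_))))).intble hb
  · exact h.bcMD0BA.intble hb
  · exact (h.bcMA1.add h.bcMVA).ofReal.intble hb
  · exact ((BC.const μ).mul (h.bcM0.ofReal.mul (h.bcB.mul h.bcA.conj_))).intble hb

theorem intB' (h : SysOn c0 μ M X VA VB M' X' VA' VB' A B A1 B1 A2 B2 b) :
    ((I1 b M B1 + I2 b M VB B : ℝ) : ℂ)
      - μ * Zc b M A B
      - ∫ r in (0 : ℝ)..b, (M r : ℂ) * ((X r * A1 r + c0 * A r) * conj (B r))
      = (M b : ℂ) * (B1 b * conj (B b)) := by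
  have hb := h.hb
  rw [← h.intB]
  have e2 : ((I1 b M B1 + I2 b M VB B : ℝ) : ℂ)
      = ∫ r in (0 : ℝ)..b, ((M r * normSq (B1 r) + M r * (VB r * normSq (B r)) : ℝ) : ℂ) := by
    rw [intervalIntegral.integral_ofReal,
      intervalIntegral.integral_add (h.bcMB1.intble hb) (h.bcMVB.intble hb)]
    rfl
  rw [e2, Zc, ← intervalIntegral.integral_const_mul, ← intervalIntegral.integral_sub,
    ← intervalIntegral.integral_sub]
  · congr 1
    funext r
    push_cast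
    ring
  · exact (((h.bcMB1.add h.bcMVB).ofReal.sub ((BC.const μ).mul
      (h.bcM0.ofReal.mul (h.bcA.mul h.bcB.conj_))))).intble hb
  · exact h.bcMD0AB.intble hb
  · exact (h.bcMB1.add h.bcMVB).ofReal.intble hb
  · exact ((BC.const μ).mul (h.bcM0.ofReal.mul (h.bcA.mul h.bcB.conj_))).intble hb

end

end Vale.Agent.P139.H657
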