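import Vale.Agent.P139.H657.Chain1

/-!
Interior inequalities (h2), (h3), (h5), (h5') and the energy flux identity.
-/

open Complex Set MeasureTheory
open scoped ComplexConjugate

namespace Vale.Agent.P139.H657

open Vale.Agent.P139.H498

variable {c0 : ℝ} {μ : ℂ} {M X VA VB M' X' VA' VB' : ℝ → ℝ} {A B A1 B1 A2 B2 : ℝ → ℂ} {b : ℝ}
variable {C n L : ℝ}

/-- `M(b)(|A|²+|B|²)(b)`. -/
noncomputable def Sb (b : ℝ) (M : ℝ → ℝ) (A B : ℝ → ℂ) : ℝ :=
  M b * (normSq (A b) + normSq (B b))

/-- Integrated skewness of `D0`. -/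
theorem skew' (h : SysOn c0 μ M X VA VB M' X' VA' VB' A B A1 B1 A2 B2 b) :
    (∫ r in (0 : ℝ)..b, (M r : ℂ) * ((X r * B1 r + c0 * B r) * conj (A r)))
      + conj (∫ r in (0 : ℝ)..b, (M r : ℂ) * ((X r * A1 r + c0 * A r) * conj (B r)))
      = ((M b * X b : ℝ) : ℂ) * (B b * conj (A b)) := by
  have hb := h.hb
  rw [conj_int hb]
  have e1 : (fun r => conj ((M r : ℂ) * ((X r * A1 r + c0 * A r) * conj (B r))))
      = fun r => (M r : ℂ) * (B r * conj (X r * A1 r + c0 * A r)) := by
    funext r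
    simp only [map_mul, Complex.conj_ofReal, Complex.conj_conj]
    ring
  have hbc2 : BC b (fun r => (M r : ℂ) * (B r * conj (X r * A1 r + c0 * A r))) :=
    h.bcM0.ofReal.mul (h.bcB.mul h.bcD0A.conj_)
  rw [e1, ← intervalIntegral.integral_add (h.bcMD0BA.intble hb) (hbc2.intble hb)]
  have key := ftc_zero (Φ := fun r => ((M r * X r : ℝ) : ℂ) * (B r * conj (A r)))
    (φ := fun r => (M r : ℂ) * ((X r * B1 r + c0 * B r) * conj (A r)
      + B r * conj (X r * A1 r + c0 * A r))) hb (fun r hr => (h.sys r hr).skew) ?_ ?_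
  · rw [← key]
    congr 1
    funext r
    ring
  · refine BC.intble hb ((h.bcMD0BA.add hbc2).congr fun r _ => ?_)
    ring
  · refine BC.vanish (ψ := fun r => ((M r * (X r / r) : ℝ) : ℂ) * (B r * conj (A r))) ?_ ?_
    · exact (h.bcM0.mul h.bcX).ofReal.mul (h.bcB.mul h.bcA.conj_)
    · intro r hr
      have : (r : ℂ) ≠ 0 := by exact_mod_cast hr.1.ne'
      rw [Complex.real_smul]
      push_cast
      field_simp

/-- The energy flux identity. -/
theorem flux' (h : SysOn c0 μ M X VA VB M' X' VA' VB' A B A1 B1 A2 B2 b) :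
    M b * ((A1 b * conj (A b)).im + (B1 b * conj (B b)).im)
      = M b * X b * (B b * conj (A b)).im - 2 * μ.re * (Zc b M A B).im := by
  have e1 := congrArg Complex.im (intA' h)
  have e2 := congrArg Complex.im (intB' h)
  have e3 := congrArg Complex.im (skew' h)
  simp only [Complex.add_im, Complex.sub_im, Complex.ofReal_im, Complex.mul_im, Complex.conj_re,
    Complex.conj_im, Complex.ofReal_re, zero_mul, add_zero, zero_add] at e1 e2 e3
  simp only [Complex.mul_im, Complex.conj_re, Complex.conj_im]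
  linarith

/-- (h2) -/
theorem ineq_h2 (h : SysOn c0 μ M X VA VB M' X' VA' VB' A B A1 B1 A2 B2 b)
    (hc : Coef C n L b X VA VB X' VA' VB') (hc0 : |c0| ≤ C) :
    ‖μ‖ * ‖Zc b M A B‖ ≤ I1 b M B1 + I2 b M VB B + (C ^ 2 * (I1 b M A1 + I1 b M A) + I1 b M B)
      + M b * (‖B1 b‖ * ‖B b‖) := by
  have e := intB' h
  have hMb := h.Mpos b ⟨h.hb, le_rfl⟩
  have e2 : μ * Zc b M A B = ((I1 b M B1 + I2 b M VB B : ℝ) : ℂ)
      - (∫ r in (0 : ℝ)..b, (M r : ℂ) * ((X r * A1 r + c0 * A r) * conj (B r)))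
      - (M b : ℂ) * (B1 b * conj (B b)) := by
    rw [← e]; ring
  have h1 := I1_nonneg h B1
  have h2 := I2_nonneg h (V := VB) (fun r hr => hc.VBnonneg hr) B
  rw [← norm_mul, e2]
  refine (norm_sub_le _ _).trans (add_le_add ((norm_sub_le _ _).trans (add_le_add ?_
    (D0A_le h hc hc0))) ?_)
  · rw [Complex.norm_real, Real.norm_eq_abs, abs_of_nonneg (by positivity)]
  · rw [norm_mul, norm_mul, Complex.norm_conj, Complex.norm_real, Real.norm_eq_abs,
      abs_of_pos hMb]

/-- (h3) -/
theorem ineq_h3 (h : SysOn c0 μ M X VA VB M' X' VA' VB' A B A1 B1 A2 B2 b)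
    (hc : Coef C n L b X VA VB X' VA' VB') (hc0 : |c0| ≤ C) :
    I2 b M (fun r => VA r - VB r) A ≤ ‖μ‖ * ‖Zc b M A B‖
      + (C ^ 2 * (I1 b M B1 + I1 b M B) + I1 b M A) + M b * (‖A1 b‖ * ‖A b‖) := by
  have e := intA' h
  have hMb := h.Mpos b ⟨h.hb, le_rfl⟩
  have h1 := I1_nonneg h A1
  have h2 := I2_nonneg h (V := VB) (fun r hr => hc.VBnonneg hr) A
  set D := ∫ r in (0 : ℝ)..b, (M r : ℂ) * ((X r * B1 r + c0 * B r) * conj (A r)) with hD
  have e2 : ((I1 b M A1 + I2 b M VB A + I2 b M (fun r => VA r - VB r) A : ℝ) : ℂ)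
      = (M b : ℂ) * (A1 b * conj (A b)) - μ * conj (Zc b M A B) - D := by
    rw [← e]; ring
  have e3 := congrArg Complex.re e2
  rw [Complex.ofReal_re] at e3
  have e4 : ((M b : ℂ) * (A1 b * conj (A b)) - μ * conj (Zc b M A B) - D).re ≤
      M b * (‖A1 b‖ * ‖A b‖) + ‖μ‖ * ‖Zc b M A B‖ +
        (C ^ 2 * (I1 b M B1 + I1 b M B) + I1 b M A) := by
    refine (Complex.re_le_norm _).trans ?_
    refine (norm_sub_le _ _).trans (add_le_add ((norm_sub_le _ _).trans (add_le_add ?_ ?_))
      (D0B_le h hc hc0))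
    · rw [norm_mul, norm_mul, Complex.norm_conj, Complex.norm_real, Real.norm_eq_abs,
        abs_of_pos hMb]
    · rw [norm_mul, Complex.norm_conj]
  linarith

/-- The Morawetz inequality (h5). -/
theorem ineq_h5 (h : SysOn c0 μ M X VA VB M' X' VA' VB' A B A1 B1 A2 B2 b)
    (hc : Coef C n L b X VA VB X' VA' VB') (hc0 : |c0| ≤ C) {G : ℝ} (hG : 0 < G) :
    En b M VB A B A1 B1 / C ≤ C ^ 2 / n * I2 b M (fun r => VA r - VB r) A
      + |μ.re| * (G * I1 b M A + 2 * C ^ 2 / G * (I1 b M B1 + I1 b M B))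
      + (C * (M b * (normSq (A1 b) + normSq (B1 b))) + (C + C * ‖μ‖) * Sb b M A B) := by
  have hb := h.hb
  have hbm : b ∈ Ioc 0 b := ⟨hb, le_rfl⟩
  have hMb := h.Mpos b hbm
  have hC := hc.hC
  have hn := hc.hn
  have hC0 : 0 < C := by linarith
  have hn0 : 0 < n := by linarith
  -- bulk
  set m1 := fun r => M r * (X' r * (normSq (A1 r) + normSq (B1 r))
        - X r * VA' r / 2 * normSq (A r) - X r * VB' r / 2 * normSq (B r)) with hm1
  set m2 := fun r => M r * (A r * conj (X r * B1 r + c0 * B r)).re with hm2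
  have bm1 : BC b m1 := (((h.bcMX'A1.add h.bcMX'B1).sub ((BC.const (1 / 2 : ℝ)).mul
      (h.bcMXVA'.add h.bcMXVB')))).congr fun r _ => by simp only [hm1]; ring
  have bm2 : BC b m2 := h.bcMAD0B
  have hmor : -(∫ r in (0 : ℝ)..b, m1 r) + 2 * μ.re * (∫ r in (0 : ℝ)..b, m2 r)
      = morB c0 M X VA VB A B A1 B1 b + M b * X b * (μ * (B b * conj (A b))).re := by
    rw [← h.mor, ← intervalIntegral.integral_const_mul, ← intervalIntegral.integral_neg,
      ← intervalIntegral.integral_add (bm1.neg.intble hb)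
        (((BC.const (2 * μ.re)).mul bm2).intble hb)]
  -- lower bound of m1
  have hlow : (1 / C) * En b M VB A B A1 B1 - C ^ 2 / n * I2 b M (fun r => VA r - VB r) A ≤
      ∫ r in (0 : ℝ)..b, m1 r := by
    have b1 : BC b (fun r => (1 / C) * (M r * normSq (A1 r) + M r * normSq (B1 r)
        + M r * (VB r * normSq (A r)) + M r * (VB r * normSq (B r)))
        - C ^ 2 / n * (M r * ((VA r - VB r) * normSq (A r)))) :=
      ((BC.const (1 / C)).mul (((h.bcMA1.add h.bcMB1).add (bcMVBA h)).add h.bcMVB)).sub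
        ((BC.const (C ^ 2 / n)).mul (bcMVdA h))
    have e : (1 / C) * En b M VB A B A1 B1 - C ^ 2 / n * I2 b M (fun r => VA r - VB r) A
        = ∫ r in (0 : ℝ)..b, ((1 / C) * (M r * normSq (A1 r) + M r * normSq (B1 r)
        + M r * (VB r * normSq (A r)) + M r * (VB r * normSq (B r)))
        - C ^ 2 / n * (M r * ((VA r - VB r) * normSq (A r)))) := by
      rw [intervalIntegral.integral_sub
        (((BC.const (1 / C)).mul (((h.bcMA1.add h.bcMB1).add (bcMVBA h)).add h.bcMVB)).intble hb)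
        (((BC.const (C ^ 2 / n)).mul (bcMVdA h)).intble hb),
        intervalIntegral.integral_const_mul, intervalIntegral.integral_const_mul,
        intervalIntegral.integral_add (((h.bcMA1.add h.bcMB1).add (bcMVBA h)).intble hb)
          (h.bcMVB.intble hb),
        intervalIntegral.integral_add ((h.bcMA1.add h.bcMB1).intble hb) ((bcMVBA h).intble hb),
        intervalIntegral.integral_add (h.bcMA1.intble hb) (h.bcMB1.intble hb)]
      rfl
    rw [e]
    refine int_mono hb b1 bm1 fun r hr => ?_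
    have hr0 := hr.1
    have hM := (h.Mpos r hr).le
    have x1 := hc.hX' r hr
    have x2 := hc.hX1 r hr
    have x3 := hc.hX2 r hr
    have x4 := hc.hVB r hr
    have x5 := hc.hVB' r hr
    have x6 := hc.hV r hr
    have x7 := hc.hV' r hr
    have y1 := normSq_nonneg (A r)
    have y2 := normSq_nonneg (B r)
    have y3 := normSq_nonneg (A1 r)
    have y4 := normSq_nonneg (B1 r)
    have hXp : 0 ≤ X r := le_trans (by positivity) x2
    -- `-X VB'/2 ≥ VB/C`
    have k1 : 1 / C * VB r ≤ -(X r * VB' r / 2) := by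
      rw [x4, x5]
      have : -(X r * -(2 * L / r ^ 3) / 2) = X r / r * (L / r ^ 2) := by
        field_simp
      rw [this]
      refine mul_le_mul_of_nonneg_right ?_ (div_nonneg hc.hL (by positivity))
      rw [div_le_div_iff₀ hC0 hr0]
      rw [div_le_iff₀ hC0] at x2
      linarith
    have k2 : X r * (VA' r - VB' r) / 2 ≤ C ^ 2 / n * (VA r - VB r) := by
      have z1 : X r * (VA' r - VB' r) ≤ X r * (C / n * (VA r - VB r)) :=
        mul_le_mul_of_nonneg_left x7 hXp
      have z2 : X r * (C / n * (VA r - VB r)) ≤ C * (C / n * (VA r - VB r)) :=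
        mul_le_mul_of_nonneg_right x3 (by positivity)
      have z3 : 0 ≤ C * (C / n * (VA r - VB r)) := by positivity
      have z4 : C * (C / n * (VA r - VB r)) = C ^ 2 / n * (VA r - VB r) := by ring
      linarith
    have w1 : 1 / C * (normSq (A1 r) + normSq (B1 r)) ≤ X' r * (normSq (A1 r) + normSq (B1 r)) :=
      mul_le_mul_of_nonneg_right x1 (by positivity)
    have w2 : 1 / C * VB r * normSq (B r) ≤ -(X r * VB' r / 2) * normSq (B r) :=
      mul_le_mul_of_nonneg_right k1 y2
    have w3 : (1 / C * VB r - C ^ 2 / n * (VA r - VB r)) * normSq (A r) ≤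
        -(X r * VA' r / 2) * normSq (A r) := by
      refine mul_le_mul_of_nonneg_right ?_ y1
      have : X r * VA' r / 2 = X r * (VA' r - VB' r) / 2 + X r * VB' r / 2 := by ring
      linarith
    have w4 := mul_le_mul_of_nonneg_left (add_le_add (add_le_add w1 w2) w3) hM
    simp only [hm1]
    nlinarith [w4]
  -- bound of m2
  have hm2le : |∫ r in (0 : ℝ)..b, m2 r| ≤ G / 2 * I1 b M A
      + C ^ 2 / G * (I1 b M B1 + I1 b M B) := by
    have b1 : BC b (fun r => G / 2 * (M r * normSq (A r))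
        + C ^ 2 / G * (M r * normSq (B1 r) + M r * normSq (B r))) :=
      ((BC.const (G / 2)).mul h.bcMA).add ((BC.const (C ^ 2 / G)).mul (h.bcMB1.add h.bcMB))
    refine (abs_int_le hb b1 fun r hr => ?_).trans ?_
    · have hM := (h.Mpos r hr).le
      simp only [hm2]
      rw [abs_mul, abs_of_nonneg hM]
      have z1 := re_mul_conj_le (x := A r) (y := (X r : ℂ) * B1 r + c0 * B r) hG
      have z2 := normSq_D0_le (a := B r) (a1 := B1 r) (hc.absX hr) hc0
      have z3 : 1 / (2 * G) * normSq ((X r : ℂ) * B1 r + c0 * B r) ≤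
          1 / (2 * G) * (2 * C ^ 2 * (normSq (B1 r) + normSq (B r))) :=
        mul_le_mul_of_nonneg_left z2 (by positivity)
      have z4 : 1 / (2 * G) * (2 * C ^ 2 * (normSq (B1 r) + normSq (B r)))
          = C ^ 2 / G * (normSq (B1 r) + normSq (B r)) := by field_simp
      have z5 : |(A r * conj ((X r : ℂ) * B1 r + c0 * B r)).re| ≤
          G / 2 * normSq (A r) + C ^ 2 / G * (normSq (B1 r) + normSq (B r)) := by linarith
      have z6 := mul_le_mul_of_nonneg_left z5 hM
      refine z6.trans (le_of_eq ?_)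
      ring
    · rw [intervalIntegral.integral_add (((BC.const (G / 2)).mul h.bcMA).intble hb)
        (((BC.const (C ^ 2 / G)).mul (h.bcMB1.add h.bcMB)).intble hb),
        intervalIntegral.integral_const_mul, intervalIntegral.integral_const_mul,
        intervalIntegral.integral_add (h.bcMB1.intble hb) (h.bcMB.intble hb)]
      exact le_rfl
  -- boundary term
  have hbd : -(morB c0 M X VA VB A B A1 B1 b + M b * X b * (μ * (B b * conj (A b))).re) ≤
      C * (M b * (normSq (A1 b) + normSq (B1 b))) + (C + C * ‖μ‖) * Sb b M A B := by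
    have x2 := hc.hX1 b hbm
    have x3 := hc.hX2 b hbm
    have hXp : 0 ≤ X b := le_trans (by positivity) x2
    have hVBb := hc.VBnonneg hbm
    have hVAb : 0 ≤ VA b := by linarith [hc.hV b hbm]
    have y1 := normSq_nonneg (A b)
    have y2 := normSq_nonneg (B b)
    have y3 := normSq_nonneg (A1 b)
    have y4 := normSq_nonneg (B1 b)
    have g1 := re_mul_conj_le (x := A1 b) (y := A b) one_pos
    have g2 := re_mul_conj_le (x := B1 b) (y := B b) one_pos
    have g3 : |(μ * (B b * conj (A b))).re| ≤ ‖μ‖ * ((normSq (A b) + normSq (B b)) / 2) := by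
      refine (Complex.abs_re_le_norm _).trans ?_
      rw [norm_mul]
      refine mul_le_mul_of_nonneg_left ?_ (norm_nonneg _)
      have := norm_mul_conj_le (x := B b) (y := A b) one_pos
      linarith
    have q1 : c0 * ((A1 b * conj (A b)).re + (B1 b * conj (B b)).re) ≤
        C * ((normSq (A1 b) + normSq (B1 b)) / 2 + (normSq (A b) + normSq (B b)) / 2) := by
      have r1 : |c0 * ((A1 b * conj (A b)).re + (B1 b * conj (B b)).re)| ≤
          C * (|(A1 b * conj (A b)).re| + |(B1 b * conj (B b)).re|) := by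
        rw [abs_mul]
        exact mul_le_mul hc0 (abs_add_le _ _) (abs_nonneg _) hC0.le
      have r2 := le_abs_self (c0 * ((A1 b * conj (A b)).re + (B1 b * conj (B b)).re))
      have r3 : C * (|(A1 b * conj (A b)).re| + |(B1 b * conj (B b)).re|) ≤
          C * ((normSq (A1 b) + normSq (B1 b)) / 2 + (normSq (A b) + normSq (B b)) / 2) :=
        mul_le_mul_of_nonneg_left (by linarith) hC0.le
      linarith
    have q2 : -(X b * (μ * (B b * conj (A b))).re) ≤
        C * (‖μ‖ * ((normSq (A b) + normSq (B b)) / 2)) := by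
      have r1 := neg_le_abs (X b * (μ * (B b * conj (A b))).re)
      have r2 : |X b * (μ * (B b * conj (A b))).re| ≤
          C * (‖μ‖ * ((normSq (A b) + normSq (B b)) / 2)) := by
        rw [abs_mul, abs_of_nonneg hXp]
        exact mul_le_mul x3 g3 (abs_nonneg _) hC0.le
      linarith
    have q3 : X b * ((normSq (A1 b) + normSq (B1 b)) / 2 - VA b / 2 * normSq (A b)
        - VB b / 2 * normSq (B b)) ≤ C * ((normSq (A1 b) + normSq (B1 b)) / 2) := by
      have r1 : (normSq (A1 b) + normSq (B1 b)) / 2 - VA b / 2 * normSq (A b)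
        - VB b / 2 * normSq (B b) ≤ (normSq (A1 b) + normSq (B1 b)) / 2 := by
        have := mul_nonneg hVAb y1
        have := mul_nonneg hVBb y2
        linarith
      exact (mul_le_mul_of_nonneg_left r1 hXp).trans
        (mul_le_mul_of_nonneg_right x3 (by positivity))
    have q4 := mul_le_mul_of_nonneg_left (add_le_add (add_le_add q3 q1) q2) hMb.le
    have q5 : 0 ≤ M b * (C * ((1 + ‖μ‖) * ((normSq (A b) + normSq (B b)) / 2))) := by positivity
    simp only [morB, Sb]
    nlinarith [q4, q5]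
  have hμ : 2 * μ.re * (∫ r in (0 : ℝ)..b, m2 r) ≤
      |μ.re| * (G * I1 b M A + 2 * C ^ 2 / G * (I1 b M B1 + I1 b M B)) := by
    have r1 := le_abs_self (2 * μ.re * (∫ r in (0 : ℝ)..b, m2 r))
    have r2 : |2 * μ.re * (∫ r in (0 : ℝ)..b, m2 r)| = |μ.re| *
        (2 * |∫ r in (0 : ℝ)..b, m2 r|) := by
      rw [abs_mul, abs_mul, abs_of_pos (by norm_num : (0 : ℝ) < 2)]; ring
    have r3 := mul_le_mul_of_nonneg_left (mul_le_mul_of_nonneg_left hm2le
      (by norm_num : (0 : ℝ) ≤ 2)) (abs_nonneg μ.re)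
    have r4 : |μ.re| * (2 * (G / 2 * I1 b M A + C ^ 2 / G * (I1 b M B1 + I1 b M B)))
      = |μ.re| * (G * I1 b M A + 2 * C ^ 2 / G * (I1 b M B1 + I1 b M B)) := by ring
    linarith
  have : En b M VB A B A1 B1 / C = (1 / C) * En b M VB A B A1 B1 := by ring
  linarith

end Vale.Agent.P139.H657
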