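import Vale.Agent.P139.H657.Chain0
import Vale.Agent.P139.H657.Chain2
import Vale.Agent.P139.H498.Int5

/-!
CLOSE I: the Morawetz case of the high frequency exclusion [S1].
-/

open Complex Set MeasureTheory
open scoped ComplexConjugate

namespace Vale.Agent.P139.H657

open Vale.Agent.P139.H498

/-- `M |A + i B|²` at `b`. -/
noncomputable def SU (b : ℝ) (M : ℝ → ℝ) (A B : ℝ → ℂ) : ℝ := M b * normSq (A b + I * B b)

/-- `M |A - i B|²` at `b`. -/
noncomputable def SV (b : ℝ) (M : ℝ → ℝ) (A B : ℝ → ℂ) : ℝ := M b * normSq (A b - I * B b)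

/-- `M Im(u' conj u)` at `b`, `u = A + i B`. -/
noncomputable def FU (b : ℝ) (M : ℝ → ℝ) (A B A1 B1 : ℝ → ℂ) : ℝ :=
  M b * ((A1 b + I * B1 b) * conj (A b + I * B b)).im

/-- `M Im(v' conj v)` at `b`, `v = A - i B`. -/
noncomputable def FV (b : ℝ) (M : ℝ → ℝ) (A B A1 B1 : ℝ → ℂ) : ℝ :=
  M b * ((A1 b - I * B1 b) * conj (A b - I * B b)).im

/-- `M Re(conj lam u' conj u)` at `b`. -/
noncomputable def RU (b : ℝ) (lam : ℂ) (M : ℝ → ℝ) (A B A1 B1 : ℝ → ℂ) : ℝ :=
  M b * (conj lam * ((A1 b + I * B1 b) * conj (A b + I * B b))).re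

/-- `M Re(conj lam v' conj v)` at `b`. -/
noncomputable def RV (b : ℝ) (lam : ℂ) (M : ℝ → ℝ) (A B A1 B1 : ℝ → ℂ) : ℝ :=
  M b * (conj lam * ((A1 b - I * B1 b) * conj (A b - I * B b))).re

theorem SU_add_SV (b : ℝ) (M : ℝ → ℝ) (A B : ℝ → ℂ) :
    SU b M A B + SV b M A B = 2 * (M b * (normSq (A b) + normSq (B b))) := by
  simp only [SU, SV, Complex.normSq_apply, Complex.add_re, Complex.add_im, Complex.sub_re,
    Complex.sub_im, Complex.mul_re, Complex.mul_im, Complex.I_re, Complex.I_im]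
  ring

theorem FU_add_FV (b : ℝ) (M : ℝ → ℝ) (A B A1 B1 : ℝ → ℂ) :
    FU b M A B A1 B1 + FV b M A B A1 B1
      = 2 * (M b * ((A1 b * conj (A b)).im + (B1 b * conj (B b)).im)) := by
  simp only [FU, FV, Complex.add_re, Complex.add_im, Complex.sub_re,
    Complex.sub_im, Complex.mul_re, Complex.mul_im, Complex.I_re, Complex.I_im,
    Complex.conj_re, Complex.conj_im]
  ring

theorem RU_add_RV (b : ℝ) (lam : ℂ) (M : ℝ → ℝ) (A B A1 B1 : ℝ → ℂ) :
    RU b lam M A B A1 B1 + RV b lam M A B A1 B1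
      = 2 * (M b * (conj lam * (A1 b * conj (A b) + B1 b * conj (B b))).re) := by
  simp only [RU, RV, Complex.add_re, Complex.add_im, Complex.sub_re,
    Complex.sub_im, Complex.mul_re, Complex.mul_im, Complex.I_re, Complex.I_im,
    Complex.conj_re, Complex.conj_im]
  ring

theorem abs_FU_le (b : ℝ) {M : ℝ → ℝ} (hM : 0 ≤ M b) (A B A1 B1 : ℝ → ℂ) {κ : ℝ} (hκ : 0 < κ) :
    |FU b M A B A1 B1| ≤ κ * SU b M A B + SU b M A1 B1 / κ := by
  rw [FU, abs_mul, abs_of_nonneg hM]
  have h1 : |((A1 b + I * B1 b) * conj (A b + I * B b)).im| ≤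
      1 / κ * normSq (A1 b + I * B1 b) + κ * normSq (A b + I * B b) := by
    refine (Complex.abs_im_le_norm _).trans ?_
    refine (norm_mul_conj_le (G := 1 / κ) (by positivity)).trans ?_
    have e1 : 1 / κ / 2 * normSq (A1 b + I * B1 b) ≤ 1 / κ * normSq (A1 b + I * B1 b) := by
      refine mul_le_mul_of_nonneg_right ?_ (normSq_nonneg _)
      exact half_le_self (by positivity)
    have e2 : 1 / (2 * (1 / κ)) = κ / 2 := by field_simp
    have e3 : κ / 2 * normSq (A b + I * B b) ≤ κ * normSq (A b + I * B b) := by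
      refine mul_le_mul_of_nonneg_right ?_ (normSq_nonneg _)
      exact half_le_self hκ.le
    rw [e2]
    linarith
  have h2 := mul_le_mul_of_nonneg_left h1 hM
  refine h2.trans (le_of_eq ?_)
  rw [SU, SU]
  ring

theorem abs_FV_le (b : ℝ) {M : ℝ → ℝ} (hM : 0 ≤ M b) (A B A1 B1 : ℝ → ℂ) {κ : ℝ} (hκ : 0 < κ) :
    |FV b M A B A1 B1| ≤ κ * SV b M A B + SV b M A1 B1 / κ := by
  have := abs_FU_le b hM A (fun r => -B r) A1 (fun r => -B1 r) hκ
  simp only [FU, SU, mul_neg, ← sub_eq_add_neg] at this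
  exact this

section

variable {c0 : ℝ} {μ : ℂ} {M X VA VB M' X' VA' VB' : ℝ → ℝ} {A B A1 B1 A2 B2 : ℝ → ℂ} {b : ℝ}
variable {C n L : ℝ}

/-- (h1) -/
theorem ineq_h1 (h : SysOn c0 μ M X VA VB M' X' VA' VB' A B A1 B1 A2 B2 b)
    (hc : Coef C n L b X VA VB X' VA' VB') (hc0 : 1 / C ≤ c0) :
    I1 b M A + I1 b M B ≤
      C ^ 4 * (En b M VB A B A1 B1 + (SU b M A B + SV b M A B)) := by
  have hC := hc.hC
  have hC0 : 0 < C := by linarith
  have hc00 : 0 < c0 := lt_of_lt_of_le (by positivity) hc0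
  have hbm : b ∈ Ioc 0 b := ⟨h.hb, le_rfl⟩
  have hMb := (h.Mpos b hbm).le
  have p1 := h.poincareA hc00 (fun r hr => hc.absX hr)
  have p2 := h.poincareB hc00 (fun r hr => hc.absX hr)
  have x3 := hc.hX2 b hbm
  have a1 := I1_nonneg h A1
  have b1 := I1_nonneg h B1
  have la := I2_nonneg h (V := VB) (fun r hr => hc.VBnonneg hr) A
  have lb := I2_nonneg h (V := VB) (fun r hr => hc.VBnonneg hr) B
  have ia := I1_nonneg h A
  have ib := I1_nonneg h B
  have e := SU_add_SV b M A B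
  have hsn : 0 ≤ M b * (normSq (A b) + normSq (B b)) :=
    mul_nonneg hMb (add_nonneg (normSq_nonneg _) (normSq_nonneg _))
  have hinv : 1 / c0 ≤ C := by
    rw [div_le_iff₀ hc00]; rw [div_le_iff₀ hC0] at hc0; linarith
  change c0 * I1 b M A ≤ _ + _ / c0 * I1 b M A1 at p1
  change c0 * I1 b M B ≤ _ + _ / c0 * I1 b M B1 at p2
  have q1 : c0 * (I1 b M A + I1 b M B) ≤ C * (M b * (normSq (A b) + normSq (B b)))
      + C ^ 3 * (I1 b M A1 + I1 b M B1) := by
    have r1 : M b * X b * normSq (A b) + M b * X b * normSq (B b) ≤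
        C * (M b * (normSq (A b) + normSq (B b))) := by
      have := mul_le_mul_of_nonneg_right x3 hsn
      linarith
    have r2 : C ^ 2 / c0 ≤ C ^ 3 := by
      have : C ^ 2 / c0 = C ^ 2 * (1 / c0) := by ring
      rw [this]
      calc C ^ 2 * (1 / c0) ≤ C ^ 2 * C := mul_le_mul_of_nonneg_left hinv (by positivity)
        _ = C ^ 3 := by ring
    have r3 := mul_le_mul_of_nonneg_right r2 (add_nonneg a1 b1)
    linarith
  have q2 : I1 b M A + I1 b M B ≤ C * (C * (M b * (normSq (A b) + normSq (B b)))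
      + C ^ 3 * (I1 b M A1 + I1 b M B1)) := by
    have r1 : I1 b M A + I1 b M B = 1 / c0 * (c0 * (I1 b M A + I1 b M B)) := by
      field_simp
    rw [r1]
    have hnn : 0 ≤ C * (M b * (normSq (A b) + normSq (B b)))
      + C ^ 3 * (I1 b M A1 + I1 b M B1) := by positivity
    exact mul_le_mul hinv q1 (by positivity) hC0.le
  have hC2 : C ^ 2 ≤ C ^ 4 := pow_le_pow_right₀ hC (by norm_num)
  have q3 : C * (C * (M b * (normSq (A b) + normSq (B b)))
      + C ^ 3 * (I1 b M A1 + I1 b M B1)) =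
      C ^ 2 * (M b * (normSq (A b) + normSq (B b))) + C ^ 4 * (I1 b M A1 + I1 b M B1) := by ring
  have q4 := mul_le_mul_of_nonneg_right hC2 hsn
  have hC4 : 0 ≤ C ^ 4 := by positivity
  have q5 : C ^ 4 * (M b * (normSq (A b) + normSq (B b))) ≤
      C ^ 4 * (SU b M A B + SV b M A B) := mul_le_mul_of_nonneg_left (by linarith) hC4
  have q6 : C ^ 4 * (I1 b M A1 + I1 b M B1) ≤ C ^ 4 * En b M VB A B A1 B1 :=
    mul_le_mul_of_nonneg_left (by unfold En; linarith) hC4
  linarith

/-- (h4): thin layer. -/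
theorem ineq_h4 (h : SysOn c0 μ M X VA VB M' X' VA' VB' A B A1 B1 A2 B2 b)
    (hc : Coef C n L b X VA VB X' VA' VB') {s0 r0 m1 η δ : ℝ} (hs0 : 0 < s0) (hη : 0 < η)
    (hsr : s0 + η ≤ r0) (hr : r0 ≤ b) (hδ : b - r0 ≤ δ) (hbC : b ≤ C) (hm1 : 0 < m1)
    (hM : ∀ x ∈ Icc s0 b, m1 ≤ M x ∧ M x ≤ C * m1)
    (hV : ∀ r ∈ Ioc 0 r0, n / C ≤ VA r - VB r) :
    I1 b M A ≤ 2 * C ^ 2 * δ * En b M VB A B A1 B1
      + (C + 2 * C ^ 3 / η) / n * I2 b M (fun r => VA r - VB r) A := by
  have hC := hc.hC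
  have hC0 : 0 < C := by linarith
  have hn := hc.hn
  have hn0 : 0 < n := by linarith
  have hb := h.hb
  have hs0r0 : s0 < r0 := by linarith
  have hr00 : 0 < r0 := by linarith
  have hsub : Icc s0 b ⊆ Ioc 0 b := fun x hx => ⟨lt_of_lt_of_le hs0 hx.1, hx.2⟩
  have hδ0 : 0 ≤ δ := by linarith
  have a1 := I1_nonneg h A1
  have b1 := I1_nonneg h B1
  have la := I2_nonneg h (V := VB) (fun r hr => hc.VBnonneg hr) A
  have lb := I2_nonneg h (V := VB) (fun r hr => hc.VBnonneg hr) B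
  have hpa := I2_nonneg h (V := fun r => VA r - VB r) (fun r hr => hc.hV r hr) A
  have hcM : ContinuousOn M (Icc s0 b) := fun x hx =>
    (h.sys x (hsub hx)).hM.continuousAt.continuousWithinAt
  have hcA1 : ContinuousOn A1 (Icc s0 b) := fun x hx =>
    (h.sys x (hsub hx)).hA1.continuousAt.continuousWithinAt
  have key := thin_layer (u := A) (u1 := A1) (M := M) hs0r0 hr hm1 hM hcM
    (fun x hx => (h.sys x (hsub hx)).hA) hcA1
  -- integrability facts
  have iA := h.bcMA.intble hb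
  have iA1 := h.bcMA1.intble hb
  have iV := (bcMVdA h).intble hb
  have hu1 : uIcc (0 : ℝ) r0 ⊆ uIcc 0 b := by
    rw [uIcc_of_le hr00.le, uIcc_of_le hb.le]; exact Icc_subset_Icc le_rfl hr
  have hu2 : uIcc r0 b ⊆ uIcc 0 b := by
    rw [uIcc_of_le hr, uIcc_of_le hb.le]; exact Icc_subset_Icc hr00.le le_rfl
  have hu3 : uIcc (0 : ℝ) s0 ⊆ uIcc 0 b := by
    rw [uIcc_of_le hs0.le, uIcc_of_le hb.le]; exact Icc_subset_Icc le_rfl (by linarith)
  have hu4 : uIcc s0 r0 ⊆ uIcc 0 b := by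
    rw [uIcc_of_le hs0r0.le, uIcc_of_le hb.le]; exact Icc_subset_Icc hs0.le hr
  have hu5 : uIcc s0 b ⊆ uIcc 0 b := by
    rw [uIcc_of_le (by linarith : s0 ≤ b), uIcc_of_le hb.le]; exact Icc_subset_Icc hs0.le le_rfl
  have hsplit : I1 b M A = (∫ r in (0 : ℝ)..r0, M r * normSq (A r))
      + ∫ r in r0..b, M r * normSq (A r) :=
    (intervalIntegral.integral_add_adjacent_intervals (iA.mono_set hu1) (iA.mono_set hu2)).symm
  have hnn : ∀ x ∈ Ioc 0 b, 0 ≤ M x * normSq (A x) := fun x hx =>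
    mul_nonneg (h.Mpos x hx).le (normSq_nonneg _)
  have hnn1 : ∀ x ∈ Ioc 0 b, 0 ≤ M x * normSq (A1 x) := fun x hx =>
    mul_nonneg (h.Mpos x hx).le (normSq_nonneg _)
  -- core
  have hcore : ∫ r in (0 : ℝ)..r0, M r * normSq (A r) ≤
      C / n * I2 b M (fun r => VA r - VB r) A := by
    have e1 : ∫ r in (0 : ℝ)..r0, M r * normSq (A r) ≤
        ∫ r in (0 : ℝ)..r0, C / n * (M r * ((VA r - VB r) * normSq (A r))) := by
      refine intervalIntegral.integral_mono_on_of_le_Ioo hr00.le (iA.mono_set hu1)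
        ((iV.mono_set hu1).const_mul _) fun x hx => ?_
      have hx' : x ∈ Ioc 0 b := ⟨hx.1, hx.2.le.trans hr⟩
      have v1 := hV x ⟨hx.1, hx.2.le⟩
      have v2 : 1 ≤ C / n * (VA x - VB x) := by
        have := mul_le_mul_of_nonneg_left v1 (by positivity : 0 ≤ C / n)
        have e : C / n * (n / C) = 1 := by field_simp
        linarith
      have := mul_le_mul_of_nonneg_right v2 (hnn x hx')
      linarith
    have e2 : ∫ r in (0 : ℝ)..r0, C / n * (M r * ((VA r - VB r) * normSq (A r))) ≤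
        C / n * I2 b M (fun r => VA r - VB r) A := by
      rw [intervalIntegral.integral_const_mul]
      refine mul_le_mul_of_nonneg_left ?_ (by positivity)
      have e3 : I2 b M (fun r => VA r - VB r) A =
          (∫ r in (0 : ℝ)..r0, M r * ((VA r - VB r) * normSq (A r)))
          + ∫ r in r0..b, M r * ((VA r - VB r) * normSq (A r)) :=
        (intervalIntegral.integral_add_adjacent_intervals (iV.mono_set hu1)
          (iV.mono_set hu2)).symm
      have e4 : 0 ≤ ∫ r in r0..b, M r * ((VA r - VB r) * normSq (A r)) := by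
        refine intervalIntegral.integral_nonneg hr fun x hx => ?_
        have hx' : x ∈ Ioc 0 b := ⟨lt_of_lt_of_le hr00 hx.1, hx.2⟩
        exact mul_nonneg (h.Mpos x hx').le (mul_nonneg (hc.hV x hx') (normSq_nonneg _))
      linarith
    exact e1.trans e2
  have hs0r : ∫ x in s0..r0, M x * ‖A x‖ ^ 2 ≤ C / n * I2 b M (fun r => VA r - VB r) A := by
    refine le_trans ?_ hcore
    have e1 : ∫ x in s0..r0, M x * ‖A x‖ ^ 2 = ∫ x in s0..r0, M x * normSq (A x) := by
      congr 1; funext x; rw [norm_sq_eq]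
    have e3 : (∫ r in (0 : ℝ)..r0, M r * normSq (A r)) =
        (∫ r in (0 : ℝ)..s0, M r * normSq (A r)) + ∫ r in s0..r0, M r * normSq (A r) :=
      (intervalIntegral.integral_add_adjacent_intervals (iA.mono_set hu3)
        (iA.mono_set hu4)).symm
    have e4 : 0 ≤ ∫ r in (0 : ℝ)..s0, M r * normSq (A r) :=
      int_nonneg hs0 fun x hx => hnn x ⟨hx.1, hx.2.trans (by linarith)⟩
    rw [e1]; linarith
  have hs0b : ∫ x in s0..b, M x * ‖A1 x‖ ^ 2 ≤ I1 b M A1 := by
    have e1 : ∫ x in s0..b, M x * ‖A1 x‖ ^ 2 = ∫ x in s0..b, M x * normSq (A1 x) := by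
      congr 1; funext x; rw [norm_sq_eq]
    have e3 : I1 b M A1 =
        (∫ r in (0 : ℝ)..s0, M r * normSq (A1 r)) + ∫ r in s0..b, M r * normSq (A1 r) :=
      (intervalIntegral.integral_add_adjacent_intervals (iA1.mono_set hu3)
        (iA1.mono_set hu5)).symm
    have e4 : 0 ≤ ∫ r in (0 : ℝ)..s0, M r * normSq (A1 r) :=
      int_nonneg hs0 fun x hx => hnn1 x ⟨hx.1, hx.2.trans (by linarith)⟩
    rw [e1]; linarith
  have hlayer : ∫ r in r0..b, M r * normSq (A r) ≤
      δ * C * (2 / η * (C / n * I2 b M (fun r => VA r - VB r) A) + 2 * C * I1 b M A1) := by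
    have e1 : ∫ x in r0..b, M x * ‖A x‖ ^ 2 = ∫ x in r0..b, M x * normSq (A x) := by
      congr 1; funext x; rw [norm_sq_eq]
    rw [← e1]
    refine key.trans ?_
    have e2 : C * m1 / m1 = C := by field_simp
    rw [e2]
    have p0 : 0 ≤ ∫ x in s0..r0, M x * ‖A x‖ ^ 2 := by
      refine intervalIntegral.integral_nonneg hs0r0.le fun x hx => ?_
      exact mul_nonneg (h.Mpos x ⟨lt_of_lt_of_le hs0 hx.1, hx.2.trans hr⟩).le (sq_nonneg _)
    have p1 : 0 ≤ ∫ x in s0..b, M x * ‖A1 x‖ ^ 2 := by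
      refine intervalIntegral.integral_nonneg (by linarith) fun x hx => ?_
      exact mul_nonneg (h.Mpos x (hsub hx)).le (sq_nonneg _)
    have e3 : 2 / (r0 - s0) * (∫ x in s0..r0, M x * ‖A x‖ ^ 2) ≤
        2 / η * (C / n * I2 b M (fun r => VA r - VB r) A) := by
      refine mul_le_mul ?_ hs0r p0 (by positivity)
      exact div_le_div_of_nonneg_left (by norm_num) hη (by linarith)
    have e4 : 2 * (b - s0) * (∫ x in s0..b, M x * ‖A1 x‖ ^ 2) ≤ 2 * C * I1 b M A1 :=
      mul_le_mul (by linarith) hs0b p1 (by positivity)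
    have e5 : 0 ≤ 2 / η * (C / n * I2 b M (fun r => VA r - VB r) A) + 2 * C * I1 b M A1 := by
      positivity
    refine mul_le_mul (mul_le_mul_of_nonneg_right hδ hC0.le) (add_le_add e3 e4) ?_ (by positivity)
    have hr0s : 0 < r0 - s0 := by linarith
    have : 0 ≤ b - s0 := by linarith
    positivity
  have hEn : I1 b M A1 ≤ En b M VB A B A1 B1 := by unfold En; linarith
  have f1 : δ * C * (2 * C * I1 b M A1) ≤ 2 * C ^ 2 * δ * En b M VB A B A1 B1 := by
    have := mul_le_mul_of_nonneg_left hEn (by positivity : 0 ≤ 2 * C ^ 2 * δ)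
    linarith
  have hδC : δ * C * (2 / η * (C / n * I2 b M (fun r => VA r - VB r) A)) =
      δ * (2 * C ^ 2 / η) / n * I2 b M (fun r => VA r - VB r) A := by
    field_simp
  rcases le_or_gt δ C with hδC' | hδC'
  · have f2 : δ * (2 * C ^ 2 / η) / n * I2 b M (fun r => VA r - VB r) A ≤
        (2 * C ^ 3 / η) / n * I2 b M (fun r => VA r - VB r) A := by
      refine mul_le_mul_of_nonneg_right (div_le_div_of_nonneg_right ?_ hn0.le) hpa
      have : 2 * C ^ 3 / η = C * (2 * C ^ 2 / η) := by ring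
      rw [this]
      exact mul_le_mul_of_nonneg_right hδC' (by positivity)
    rw [hsplit]
    have : (C + 2 * C ^ 3 / η) / n * I2 b M (fun r => VA r - VB r) A =
      C / n * I2 b M (fun r => VA r - VB r) A
        + (2 * C ^ 3 / η) / n * I2 b M (fun r => VA r - VB r) A := by ring
    rw [this]
    have hexp : δ * C * (2 / η * (C / n * I2 b M (fun r => VA r - VB r) A)
      + 2 * C * I1 b M A1) = δ * C * (2 / η * (C / n * I2 b M (fun r => VA r - VB r) A))
      + δ * C * (2 * C * I1 b M A1) := by ring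
    rw [hexp, hδC] at hlayer
    linarith
  · -- `δ > C ≥ b`: use `b - r0 ≤ C` instead
    have hlayer' : ∫ r in r0..b, M r * normSq (A r) ≤
      C * C * (2 / η * (C / n * I2 b M (fun r => VA r - VB r) A) + 2 * C * I1 b M A1) := by
      have e1 : ∫ x in r0..b, M x * ‖A x‖ ^ 2 = ∫ x in r0..b, M x * normSq (A x) := by
        congr 1; funext x; rw [norm_sq_eq]
      rw [← e1]
      refine key.trans ?_
      have e2 : C * m1 / m1 = C := by field_simp
      rw [e2]
      have p0 : 0 ≤ ∫ x in s0..r0, M x * ‖A x‖ ^ 2 := by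
        refine intervalIntegral.integral_nonneg hs0r0.le fun x hx => ?_
        exact mul_nonneg (h.Mpos x ⟨lt_of_lt_of_le hs0 hx.1, hx.2.trans hr⟩).le (sq_nonneg _)
      have p1 : 0 ≤ ∫ x in s0..b, M x * ‖A1 x‖ ^ 2 := by
        refine intervalIntegral.integral_nonneg (by linarith) fun x hx => ?_
        exact mul_nonneg (h.Mpos x (hsub hx)).le (sq_nonneg _)
      have e3 : 2 / (r0 - s0) * (∫ x in s0..r0, M x * ‖A x‖ ^ 2) ≤
          2 / η * (C / n * I2 b M (fun r => VA r - VB r) A) := by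
        refine mul_le_mul ?_ hs0r p0 (by positivity)
        exact div_le_div_of_nonneg_left (by norm_num) hη (by linarith)
      have e4 : 2 * (b - s0) * (∫ x in s0..b, M x * ‖A1 x‖ ^ 2) ≤ 2 * C * I1 b M A1 :=
        mul_le_mul (by linarith) hs0b p1 (by positivity)
      have e5 : 0 ≤ 2 / η * (C / n * I2 b M (fun r => VA r - VB r) A) + 2 * C * I1 b M A1 := by
        positivity
      refine mul_le_mul (mul_le_mul_of_nonneg_right (by linarith) hC0.le) (add_le_add e3 e4) ?_
        (by positivity)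
      have hr0s : 0 < r0 - s0 := by linarith
      have : 0 ≤ b - s0 := by linarith
      positivity
    have f1' : C * C * (2 * C * I1 b M A1) ≤ 2 * C ^ 2 * δ * En b M VB A B A1 B1 := by
      have g1 : C * C * (2 * C * I1 b M A1) = 2 * C ^ 2 * C * I1 b M A1 := by ring
      rw [g1]
      refine mul_le_mul ?_ hEn a1 (by positivity)
      exact mul_le_mul_of_nonneg_left hδC'.le (by positivity)
    rw [hsplit]
    have g2 : C * C * (2 / η * (C / n * I2 b M (fun r => VA r - VB r) A)) =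
      (2 * C ^ 3 / η) / n * I2 b M (fun r => VA r - VB r) A := by ring
    have : (C + 2 * C ^ 3 / η) / n * I2 b M (fun r => VA r - VB r) A =
      C / n * I2 b M (fun r => VA r - VB r) A
        + (2 * C ^ 3 / η) / n * I2 b M (fun r => VA r - VB r) A := by ring
    rw [this]
    have hexp : C * C * (2 / η * (C / n * I2 b M (fun r => VA r - VB r) A)
      + 2 * C * I1 b M A1) = C * C * (2 / η * (C / n * I2 b M (fun r => VA r - VB r) A))
      + C * C * (2 * C * I1 b M A1) := by ring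
    rw [hexp, g2] at hlayer'
    linarith

end

end Vale.Agent.P139.H657
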