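import Vale.Agent.P139.H657.Close

/-!
CLOSE I (Morawetz case) and CLOSE II (energy case) of the high frequency exclusion [S1].
-/

open Complex Set MeasureTheory
open scoped ComplexConjugate

namespace Vale.Agent.P139.H657

open Vale.Agent.P139.H498

section

variable {c0 : ℝ} {μ : ℂ} {M X VA VB M' X' VA' VB' : ℝ → ℝ} {A B A1 B1 A2 B2 : ℝ → ℂ} {b : ℝ}
variable {C n L : ℝ}

theorem SU_nonneg (h : SysOn c0 μ M X VA VB M' X' VA' VB' A B A1 B1 A2 B2 b) (F G : ℝ → ℂ) :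
    0 ≤ SU b M F G ∧ 0 ≤ SV b M F G :=
  ⟨mul_nonneg (h.Mpos b ⟨h.hb, le_rfl⟩).le (normSq_nonneg _),
    mul_nonneg (h.Mpos b ⟨h.hb, le_rfl⟩).le (normSq_nonneg _)⟩

theorem En_nonneg (h : SysOn c0 μ M X VA VB M' X' VA' VB' A B A1 B1 A2 B2 b)
    (hc : Coef C n L b X VA VB X' VA' VB') : 0 ≤ En b M VB A B A1 B1 := by
  have a1 := I1_nonneg h A1
  have b1 := I1_nonneg h B1
  have la := I2_nonneg h (V := VB) (fun r hr => hc.VBnonneg hr) A
  have lb := I2_nonneg h (V := VB) (fun r hr => hc.VBnonneg hr) B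
  unfold En
  linarith

/-- Boundary products. -/
theorem bd_prod_le (h : SysOn c0 μ M X VA VB M' X' VA' VB' A B A1 B1 A2 B2 b) {κ : ℝ}
    (hκ : 0 < κ) :
    M b * (‖A1 b‖ * ‖A b‖) ≤ κ * (SU b M A B + SV b M A B)
      + (SU b M A1 B1 + SV b M A1 B1) / κ ∧
    M b * (‖B1 b‖ * ‖B b‖) ≤ κ * (SU b M A B + SV b M A B)
      + (SU b M A1 B1 + SV b M A1 B1) / κ := by
  have hMb := (h.Mpos b ⟨h.hb, le_rfl⟩).le
  rw [SU_add_SV, SU_add_SV]
  have yA := normSq_nonneg (A b)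
  have yB := normSq_nonneg (B b)
  have yA1 := normSq_nonneg (A1 b)
  have yB1 := normSq_nonneg (B1 b)
  have gen : ∀ x y p q : ℝ, x ^ 2 ≤ p → y ^ 2 ≤ q → 0 ≤ p → 0 ≤ q →
      x * y ≤ κ * (2 * q) + (2 * p) / κ := by
    intro x y p q hx hy hp hq
    have h1 := mul_le_wt (x := x) (y := y) (G := 1 / κ) (by positivity)
    have e1 : 1 / (2 * (1 / κ)) = κ / 2 := by field_simp
    rw [e1] at h1
    have h2 : 1 / κ / 2 * x ^ 2 ≤ 2 * p / κ := by
      have : 1 / κ / 2 * x ^ 2 ≤ 1 / κ / 2 * p := mul_le_mul_of_nonneg_left hx (by positivity)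
      have e : 2 * p / κ = 1 / κ / 2 * p + (3 / 2) * (p / κ) := by ring
      have : 0 ≤ p / κ := by positivity
      linarith
    have h3 : κ / 2 * y ^ 2 ≤ κ * (2 * q) := by
      have : κ / 2 * y ^ 2 ≤ κ / 2 * q := mul_le_mul_of_nonneg_left hy (by positivity)
      have : 0 ≤ κ * q := by positivity
      linarith
    linarith
  constructor
  · have := gen ‖A1 b‖ ‖A b‖ (normSq (A1 b) + normSq (B1 b)) (normSq (A b) + normSq (B b))
      (by rw [norm_sq_eq]; linarith) (by rw [norm_sq_eq]; linarith) (by linarith) (by linarith)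
    refine (mul_le_mul_of_nonneg_left this hMb).trans (le_of_eq ?_)
    ring
  · have := gen ‖B1 b‖ ‖B b‖ (normSq (A1 b) + normSq (B1 b)) (normSq (A b) + normSq (B b))
      (by rw [norm_sq_eq]; linarith) (by rw [norm_sq_eq]; linarith) (by linarith) (by linarith)
    refine (mul_le_mul_of_nonneg_left this hMb).trans (le_of_eq ?_)
    ring

/-- Interior inequalities (h1)-(h3) with one constant. -/
theorem interior_all (h : SysOn c0 μ M X VA VB M' X' VA' VB' A B A1 B1 A2 B2 b)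
    (hc : Coef C n L b X VA VB X' VA' VB') (hc0 : 1 / C ≤ c0) (hc0' : c0 ≤ C)
    {κ ν : ℝ} (hκ : 1 ≤ κ) (hν : ν = ‖μ + c0‖) :
    ν * ‖Zc b M A B‖ ≤ 4 * C ^ 4 * (En b M VB A B A1 B1 + I1 b M A + I1 b M B
        + κ * (SU b M A B + SV b M A B) + (SU b M A1 B1 + SV b M A1 B1) / κ) ∧
    I2 b M (fun r => VA r - VB r) A ≤ 4 * C ^ 4 * (ν * ‖Zc b M A B‖ + ‖Zc b M A B‖
        + En b M VB A B A1 B1 + I1 b M A + I1 b M B
        + κ * (SU b M A B + SV b M A B) + (SU b M A1 B1 + SV b M A1 B1) / κ) := by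
  have hC := hc.hC
  have hC0 : 0 < C := by linarith
  have hc00 : 0 < c0 := lt_of_lt_of_le (by positivity) hc0
  have hac0 : |c0| ≤ C := by rw [abs_of_pos hc00]; exact hc0'
  have hκ0 : 0 < κ := by linarith
  obtain ⟨d1, d2⟩ := bd_prod_le h hκ0
  have i2 := ineq_h2 h hc hac0
  have i3 := ineq_h3 h hc hac0
  have a1 := I1_nonneg h A1
  have b1 := I1_nonneg h B1
  have la := I2_nonneg h (V := VB) (fun r hr => hc.VBnonneg hr) A
  have lb := I2_nonneg h (V := VB) (fun r hr => hc.VBnonneg hr) B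
  have ia := I1_nonneg h A
  have ib := I1_nonneg h B
  have hz := Zc_le h
  have hz0 := norm_nonneg (Zc b M A B)
  obtain ⟨su, sv⟩ := SU_nonneg h A B
  obtain ⟨tu, tv⟩ := SU_nonneg h A1 B1
  set z := ‖Zc b M A B‖ with hzdef
  set E := En b M VB A B A1 B1 with hE
  have hE' : E = I1 b M A1 + I1 b M B1 + I2 b M VB A + I2 b M VB B := rfl
  set S := SU b M A B + SV b M A B with hS
  set T := (SU b M A1 B1 + SV b M A1 B1) / κ with hT
  have hS0 : 0 ≤ κ * S := by positivity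
  have hT0 : 0 ≤ T := by positivity
  have hCC : 1 ≤ C ^ 2 := one_le_pow₀ hC
  have hC4 : C ^ 2 ≤ C ^ 4 := pow_le_pow_right₀ hC (by norm_num)
  have hCle : C ≤ C ^ 2 := by
    have := mul_le_mul_of_nonneg_left hC hC0.le
    linarith
  have hν1 : ν ≤ ‖μ‖ + C := by
    rw [hν]
    refine (norm_add_le _ _).trans ?_
    rw [Complex.norm_real, Real.norm_eq_abs]
    linarith
  have hν2 : ‖μ‖ ≤ ν + C := by
    have e : μ = (μ + c0) - c0 := by ring
    rw [hν]
    calc ‖μ‖ = ‖(μ + c0) - c0‖ := by rw [← e]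
      _ ≤ ‖μ + c0‖ + ‖(c0 : ℂ)‖ := norm_sub_le _ _
      _ ≤ _ := by rw [Complex.norm_real, Real.norm_eq_abs]; linarith
  have hE0 : 0 ≤ E := by rw [hE']; linarith
  have hC2E : I1 b M B1 + I2 b M VB B + C ^ 2 * I1 b M A1 ≤ C ^ 2 * E := by
    have r1 : 1 * (I1 b M B1 + I2 b M VB B) ≤ C ^ 2 * (I1 b M B1 + I2 b M VB B) :=
      mul_le_mul_of_nonneg_right hCC (by linarith)
    have r2 : 0 ≤ C ^ 2 * I2 b M VB A := by positivity
    have r3 : C ^ 2 * E = C ^ 2 * I1 b M A1 + C ^ 2 * (I1 b M B1 + I2 b M VB B)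
      + C ^ 2 * I2 b M VB A := by rw [hE']; ring
    linarith
  have hC2E' : C ^ 2 * I1 b M B1 ≤ C ^ 2 * E := by
    refine mul_le_mul_of_nonneg_left ?_ (by positivity)
    rw [hE']; linarith
  have one_le : ∀ x : ℝ, 0 ≤ x → x ≤ C ^ 2 * x := fun x hx => by
    have := mul_le_mul_of_nonneg_right hCC hx
    linarith
  have j1 : ‖μ‖ * z ≤ C ^ 2 * (E + I1 b M A + I1 b M B) + (κ * S + T) := by
    have r1 := one_le _ ib
    have r2 : C ^ 2 * (E + I1 b M A + I1 b M B) = C ^ 2 * E + C ^ 2 * I1 b M A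
      + C ^ 2 * I1 b M B := by ring
    rw [r2]
    linarith
  have j2 : C * z ≤ C ^ 2 * (I1 b M A + I1 b M B) := by
    have r1 : C * z ≤ C * (I1 b M A + I1 b M B) := mul_le_mul_of_nonneg_left hz hC0.le
    have r2 := mul_le_mul_of_nonneg_right hCle (by linarith : 0 ≤ I1 b M A + I1 b M B)
    linarith
  have W0 : 0 ≤ E + I1 b M A + I1 b M B + κ * S + T := by linarith
  have j3 : 2 * C ^ 2 * (E + I1 b M A + I1 b M B + κ * S + T) ≤
      4 * C ^ 4 * (E + I1 b M A + I1 b M B + κ * S + T) :=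
    mul_le_mul_of_nonneg_right (by linarith) W0
  have j4 : κ * S + T ≤ C ^ 2 * (κ * S + T) := one_le _ (by linarith)
  have hνz : ν * z ≤ (‖μ‖ + C) * z := mul_le_mul_of_nonneg_right hν1 hz0
  have k0 : 0 ≤ C ^ 2 * E := by positivity
  have k1 : 0 ≤ C ^ 2 * I1 b M A := by positivity
  have k2 : 0 ≤ C ^ 2 * I1 b M B := by positivity
  have k5 : 0 ≤ C ^ 2 * (κ * S + T) := by positivity
  constructor
  · refine le_trans ?_ j3
    have expand : 2 * C ^ 2 * (E + I1 b M A + I1 b M B + κ * S + T) =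
      2 * (C ^ 2 * E) + 2 * (C ^ 2 * I1 b M A)
      + 2 * (C ^ 2 * I1 b M B) + 2 * (C ^ 2 * (κ * S + T)) := by ring
    have e2 : C ^ 2 * (E + I1 b M A + I1 b M B) = C ^ 2 * E + C ^ 2 * I1 b M A
      + C ^ 2 * I1 b M B := by ring
    have e3 : C ^ 2 * (I1 b M A + I1 b M B) = C ^ 2 * I1 b M A + C ^ 2 * I1 b M B := by ring
    have e4 : (‖μ‖ + C) * z = ‖μ‖ * z + C * z := by ring
    rw [expand]
    linarith
  · have hμz : ‖μ‖ * z ≤ (ν + C) * z := mul_le_mul_of_nonneg_right hν2 hz0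
    have hνz0 : 0 ≤ ν * z := by rw [hν]; positivity
    have W1 : 0 ≤ ν * z + z + E + I1 b M A + I1 b M B + κ * S + T := by linarith
    have j5 : 2 * C ^ 2 * (ν * z + z + E + I1 b M A + I1 b M B + κ * S + T) ≤
      4 * C ^ 4 * (ν * z + z + E + I1 b M A + I1 b M B + κ * S + T) :=
      mul_le_mul_of_nonneg_right (by linarith) W1
    refine le_trans ?_ j5
    have j6 : C * z ≤ C ^ 2 * z := mul_le_mul_of_nonneg_right hCle hz0
    have j7 := one_le _ hνz0
    have j8 := one_le _ ia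
    have k3 : 0 ≤ C ^ 2 * z := by positivity
    have expand : 2 * C ^ 2 * (ν * z + z + E + I1 b M A + I1 b M B + κ * S + T) =
      2 * (C ^ 2 * (ν * z)) + 2 * (C ^ 2 * z) + 2 * (C ^ 2 * E) + 2 * (C ^ 2 * I1 b M A)
      + 2 * (C ^ 2 * I1 b M B) + 2 * (C ^ 2 * (κ * S + T)) := by ring
    have e4 : (ν + C) * z = ν * z + C * z := by ring
    have e5 : C ^ 2 * (I1 b M B1 + I1 b M B) = C ^ 2 * I1 b M B1 + C ^ 2 * I1 b M B := by ring
    rw [expand]
    linarith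

/-- (h5) in closed form. -/
theorem mor_all (h : SysOn c0 μ M X VA VB M' X' VA' VB' A B A1 B1 A2 B2 b)
    (hc : Coef C n L b X VA VB X' VA' VB') (hc0 : 1 / C ≤ c0) (hc0' : c0 ≤ C)
    (hμ : |μ.re| ≤ C)
    {κ G : ℝ} (hκ : 1 ≤ κ) (hν' : ‖μ + c0‖ ≤ κ ^ 2) (hG : 0 < G) :
    En b M VB A B A1 B1 ≤ 4 * C ^ 4 * (κ ^ 2 * (SU b M A B + SV b M A B)
      + (SU b M A1 B1 + SV b M A1 B1) + I2 b M (fun r => VA r - VB r) A / n
      + G * I1 b M A + (En b M VB A B A1 B1 + I1 b M B) / G) := by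
  have hC := hc.hC
  have hn := hc.hn
  have hn0 : 0 < n := by linarith
  have hC0 : 0 < C := by linarith
  have hc00 : 0 < c0 := lt_of_lt_of_le (by positivity) hc0
  have hac0 : |c0| ≤ C := by rw [abs_of_pos hc00]; exact hc0'
  have key := ineq_h5 h hc hac0 hG
  have a1 := I1_nonneg h A1
  have b1 := I1_nonneg h B1
  have la := I2_nonneg h (V := VB) (fun r hr => hc.VBnonneg hr) A
  have lb := I2_nonneg h (V := VB) (fun r hr => hc.VBnonneg hr) B
  have ia := I1_nonneg h A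
  have ib := I1_nonneg h B
  have hpa := I2_nonneg h (V := fun r => VA r - VB r) (fun r hr => hc.hV r hr) A
  have e1 := SU_add_SV b M A B
  have e2 := SU_add_SV b M A1 B1
  obtain ⟨su, sv⟩ := SU_nonneg h A B
  obtain ⟨tu, tv⟩ := SU_nonneg h A1 B1
  have hSb : Sb b M A B = (SU b M A B + SV b M A B) / 2 := by rw [e1, Sb]; ring
  have hTb : M b * (normSq (A1 b) + normSq (B1 b)) = (SU b M A1 B1 + SV b M A1 B1) / 2 := by
    rw [e2]; ring
  rw [hSb, hTb] at key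
  set E := En b M VB A B A1 B1 with hE
  have hE' : E = I1 b M A1 + I1 b M B1 + I2 b M VB A + I2 b M VB B := rfl
  set S := SU b M A B + SV b M A B with hS
  set T := SU b M A1 B1 + SV b M A1 B1 with hT
  set pa := I2 b M (fun r => VA r - VB r) A with hpadef
  have hS0 : 0 ≤ S := by positivity
  have hT0 : 0 ≤ T := by positivity
  have hμn : ‖μ‖ ≤ κ ^ 2 + C := by
    have e : μ = (μ + c0) - c0 := by ring
    calc ‖μ‖ = ‖(μ + c0) - c0‖ := by rw [← e]
      _ ≤ ‖μ + c0‖ + ‖(c0 : ℂ)‖ := norm_sub_le _ _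
      _ ≤ _ := by rw [Complex.norm_real, Real.norm_eq_abs]; linarith
  have hκ2 : 1 ≤ κ ^ 2 := one_le_pow₀ hκ
  have hb1E : I1 b M B1 + I1 b M B ≤ E + I1 b M B := by rw [hE']; linarith
  have hEib : 0 ≤ E + I1 b M B := by rw [hE']; linarith
  rw [div_le_iff₀ hC0] at key
  have m1 : |μ.re| * (G * I1 b M A + 2 * C ^ 2 / G * (I1 b M B1 + I1 b M B)) ≤
      C * (G * I1 b M A) + 2 * C ^ 3 * ((E + I1 b M B) / G) := by
    have r1 : 2 * C ^ 2 / G * (I1 b M B1 + I1 b M B) ≤ 2 * C ^ 2 / G * (E + I1 b M B) :=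
      mul_le_mul_of_nonneg_left hb1E (by positivity)
    have r2 : |μ.re| * (G * I1 b M A + 2 * C ^ 2 / G * (I1 b M B1 + I1 b M B)) ≤
        C * (G * I1 b M A + 2 * C ^ 2 / G * (E + I1 b M B)) :=
      mul_le_mul hμ (by linarith) (by positivity) hC0.le
    refine r2.trans (le_of_eq ?_)
    ring
  have m2 : (C + C * ‖μ‖) * (S / 2) ≤ 2 * C ^ 2 * (κ ^ 2 * S) := by
    have r1 : C + C * ‖μ‖ ≤ 4 * C ^ 2 * κ ^ 2 := by
      have : C * ‖μ‖ ≤ C * (κ ^ 2 + C) := mul_le_mul_of_nonneg_left hμn hC0.le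
      have hCC : C ≤ C ^ 2 := by
        have := mul_le_mul_of_nonneg_left hC hC0.le
        linarith
      have t3 : C ^ 2 * 1 ≤ C ^ 2 * κ ^ 2 := mul_le_mul_of_nonneg_left hκ2 (by positivity)
      have t2 : C * κ ^ 2 ≤ C ^ 2 * κ ^ 2 := mul_le_mul_of_nonneg_right hCC (by positivity)
      have t4 : C * (κ ^ 2 + C) = C * κ ^ 2 + C ^ 2 := by ring
      have t5 : 4 * C ^ 2 * κ ^ 2 = 4 * (C ^ 2 * κ ^ 2) := by ring
      rw [t5]
      linarith
    have r2 := mul_le_mul_of_nonneg_right r1 (by positivity : 0 ≤ S / 2)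
    linarith
  have m3 : C ^ 2 / n * pa = C ^ 2 * (pa / n) := by ring
  have hpan : 0 ≤ pa / n := by positivity
  have hC1 : C * C ≤ C ^ 4 := by
    calc C * C = C ^ 2 := by ring
      _ ≤ C ^ 4 := pow_le_pow_right₀ hC (by norm_num)
  have hC3 : C ^ 3 ≤ C ^ 4 := pow_le_pow_right₀ hC (by norm_num)
  have hEG : 0 ≤ (E + I1 b M B) / G := by positivity
  have g1 : E ≤ (C ^ 2 * (pa / n) + (C * (G * I1 b M A) + 2 * C ^ 3 * ((E + I1 b M B) / G))
      + (C * (T / 2) + 2 * C ^ 2 * (κ ^ 2 * S))) * C := by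
    refine key.trans (mul_le_mul_of_nonneg_right ?_ hC0.le)
    rw [m3]
    linarith
  have g2 : (C ^ 2 * (pa / n) + (C * (G * I1 b M A) + 2 * C ^ 3 * ((E + I1 b M B) / G))
      + (C * (T / 2) + 2 * C ^ 2 * (κ ^ 2 * S))) * C = C ^ 3 * (pa / n)
      + C * C * (G * I1 b M A) + 2 * C ^ 4 * ((E + I1 b M B) / G) + C * C * T / 2
      + 2 * C ^ 3 * (κ ^ 2 * S) := by ring
  have n1 := mul_le_mul_of_nonneg_right hC3 hpan
  have n2 := mul_le_mul_of_nonneg_right hC1 (by positivity : 0 ≤ G * I1 b M A)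
  have n3 := mul_le_mul_of_nonneg_right hC1 hT0
  have n4 := mul_le_mul_of_nonneg_right hC3 (by positivity : 0 ≤ κ ^ 2 * S)
  have hC4 : 0 ≤ C ^ 4 := by positivity
  have p1 := mul_nonneg hC4 hpan
  have p2 := mul_nonneg hC4 (by positivity : 0 ≤ G * I1 b M A)
  have p3 := mul_nonneg hC4 hT0
  have p4 := mul_nonneg hC4 (by positivity : 0 ≤ κ ^ 2 * S)
  have p5 := mul_nonneg hC4 hEG
  rw [g2] at g1
  have expand : 4 * C ^ 4 * (κ ^ 2 * S + T + pa / n + G * I1 b M A + (E + I1 b M B) / G)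
    = 4 * (C ^ 4 * (κ ^ 2 * S)) + 4 * (C ^ 4 * T) + 4 * (C ^ 4 * (pa / n))
      + 4 * (C ^ 4 * (G * I1 b M A)) + 4 * (C ^ 4 * ((E + I1 b M B) / G)) := by ring
  rw [expand]
  linarith

/-- Flux: an oscillating component is controlled by the other one and by `|∫ M A conj B|`. -/
theorem flux_all (h : SysOn c0 μ M X VA VB M' X' VA' VB' A B A1 B1 A2 B2 b)
    (hc : Coef C n L b X VA VB X' VA' VB') (hμ : |μ.re| ≤ C) :
    |FU b M A B A1 B1 + FV b M A B A1 B1| ≤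
      C * (SU b M A B + SV b M A B) + 4 * C * ‖Zc b M A B‖ := by
  have hC := hc.hC
  have hC0 : 0 < C := by linarith
  have hbm : b ∈ Ioc 0 b := ⟨h.hb, le_rfl⟩
  have hMb := (h.Mpos b hbm).le
  have e := flux' h
  rw [FU_add_FV, e]
  have x1 := hc.absX hbm
  have e1 := SU_add_SV b M A B
  have h1 : |M b * X b * (B b * conj (A b)).im| ≤ C * ((SU b M A B + SV b M A B) / 4) := by
    rw [e1, abs_mul, abs_mul, abs_of_nonneg hMb]
    have g1 : |(B b * conj (A b)).im| ≤ (normSq (A b) + normSq (B b)) / 2 := by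
      refine (Complex.abs_im_le_norm _).trans ?_
      have := norm_mul_conj_le (x := B b) (y := A b) one_pos
      linarith
    have g2 : |X b| * |(B b * conj (A b)).im| ≤ C * ((normSq (A b) + normSq (B b)) / 2) :=
      mul_le_mul x1 g1 (abs_nonneg _) hC0.le
    have g3 := mul_le_mul_of_nonneg_left g2 hMb
    calc M b * |X b| * |(B b * conj (A b)).im| = M b * (|X b| * |(B b * conj (A b)).im|) := by
          ring
      _ ≤ _ := g3
      _ = _ := by ring
  have h2 : |2 * μ.re * (Zc b M A B).im| ≤ 2 * C * ‖Zc b M A B‖ := by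
    rw [abs_mul, abs_mul, abs_of_pos (by norm_num : (0 : ℝ) < 2)]
    exact mul_le_mul (mul_le_mul_of_nonneg_left hμ (by norm_num)) (Complex.abs_im_le_norm _)
      (abs_nonneg _) (by positivity)
  obtain ⟨su, sv⟩ := SU_nonneg h A B
  rw [abs_mul, abs_of_pos (by norm_num : (0 : ℝ) < 2)]
  have h3 := abs_sub (M b * X b * (B b * conj (A b)).im) (2 * μ.re * (Zc b M A B).im)
  have h4 : 0 ≤ C * (SU b M A B + SV b M A B) := by positivity
  linarith

end

end Vale.Agent.P139.H657
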