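import Vale.Agent.P139.H657.Close2

/-!
CLOSE II (energy case) of the high frequency exclusion [S1], and the vanishing lemma.
-/

open Complex Set MeasureTheory
open scoped ComplexConjugate

namespace Vale.Agent.P139.H657

open Vale.Agent.P139.H498

section

variable {c0 : ℝ} {μ : ℂ} {M X VA VB M' X' VA' VB' : ℝ → ℝ} {A B A1 B1 A2 B2 : ℝ → ℂ} {b : ℝ}
variable {C n L : ℝ}

/-- The energy inequality (h5'). -/
theorem ineq_energy (h : SysOn c0 μ M X VA VB M' X' VA' VB' A B A1 B1 A2 B2 b)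
    (hc : Coef C n L b X VA VB X' VA' VB') (hμ : 1 ≤ μ.re) (hn : C ^ 2 ≤ n) :
    En b M VB A B A1 B1 ≤
      (X b / 4 * (SU b M A1 B1 - VB b * SU b M A B) + RU b (μ + c0) M A B A1 B1 / 2)
      + (X b / 4 * (SV b M A1 B1 - VB b * SV b M A B) + RV b (μ + c0) M A B A1 B1 / 2) := by
  have hb := h.hb
  have hbm : b ∈ Ioc 0 b := ⟨hb, le_rfl⟩
  have hMb := (h.Mpos b hbm).le
  have hC := hc.hC
  have hC0 : 0 < C := by linarith
  have hn0 : 0 < n := by linarith [hc.hn]
  set m1 := fun r => M r * ((μ.re + X' r) * (normSq (A1 r) + normSq (B1 r))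
        + μ.re * (VA r * normSq (A r) + VB r * normSq (B r))
        - X r / 2 * (VA' r * normSq (A r) + VB' r * normSq (B r))) with hm1
  have bm1 : BC b m1 := by
    refine BC.congr ((((BC.const μ.re).mul (h.bcMA1.add h.bcMB1)).add
      (h.bcMX'A1.add h.bcMX'B1)).add (((BC.const μ.re).mul (h.bcMVA.add h.bcMVB)).add
      ((BC.const (-(1 / 2) : ℝ)).mul (h.bcMXVA'.add h.bcMXVB')))) ?_
    intro r _
    simp only [hm1]
    ring
  have hlow : En b M VB A B A1 B1 ≤ ∫ r in (0 : ℝ)..b, m1 r := by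
    have b1 : BC b (fun r => (M r * normSq (A1 r) + M r * normSq (B1 r)
        + M r * (VB r * normSq (A r)) + M r * (VB r * normSq (B r)))) :=
      (((h.bcMA1.add h.bcMB1).add (bcMVBA h)).add h.bcMVB)
    have e : En b M VB A B A1 B1
        = ∫ r in (0 : ℝ)..b, ((M r * normSq (A1 r) + M r * normSq (B1 r)
        + M r * (VB r * normSq (A r)) + M r * (VB r * normSq (B r)))) := by
      rw [intervalIntegral.integral_add (((h.bcMA1.add h.bcMB1).add (bcMVBA h)).intble hb)
          (h.bcMVB.intble hb),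
        intervalIntegral.integral_add ((h.bcMA1.add h.bcMB1).intble hb) ((bcMVBA h).intble hb),
        intervalIntegral.integral_add (h.bcMA1.intble hb) (h.bcMB1.intble hb)]
      rfl
    rw [e]
    refine int_mono hb b1 bm1 fun r hr => ?_
    have hr0 := hr.1
    have hM := (h.Mpos r hr).le
    have x1 := hc.hX' r hr
    have x2 := hc.hX1 r hr
    have x3 := hc.hX2 r hr
    have x4 := hc.hVB r hr
    have x5 := hc.hVB' r hr
    have x6 := hc.hV r hr
    have x7 := hc.hV' r hr
    have y1 := normSq_nonneg (A r)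
    have y2 := normSq_nonneg (B r)
    have y3 := normSq_nonneg (A1 r)
    have y4 := normSq_nonneg (B1 r)
    have hXp : 0 ≤ X r := le_trans (by positivity) x2
    have hVBn := hc.VBnonneg hr
    have hX'0 : 0 ≤ X' r := le_trans (by positivity) x1
    -- `-X VB'/2 ≥ 0`
    have k1 : 0 ≤ -(X r * VB' r / 2) := by
      rw [x5]
      have : -(X r * -(2 * L / r ^ 3) / 2) = X r * (L / r ^ 3) := by ring
      rw [this]
      have := hc.hL
      positivity
    have k2 : X r * (VA' r - VB' r) / 2 ≤ VA r - VB r := by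
      have z1 : X r * (VA' r - VB' r) ≤ X r * (C / n * (VA r - VB r)) :=
        mul_le_mul_of_nonneg_left x7 hXp
      have z2 : X r * (C / n * (VA r - VB r)) ≤ C * (C / n * (VA r - VB r)) :=
        mul_le_mul_of_nonneg_right x3 (by positivity)
      have z3 : C * (C / n * (VA r - VB r)) = C ^ 2 / n * (VA r - VB r) := by ring
      have z4 : C ^ 2 / n * (VA r - VB r) ≤ 1 * (VA r - VB r) :=
        mul_le_mul_of_nonneg_right (by rw [div_le_one hn0]; exact hn) x6
      linarith
    have w1 : 1 * (normSq (A1 r) + normSq (B1 r)) ≤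
        (μ.re + X' r) * (normSq (A1 r) + normSq (B1 r)) :=
      mul_le_mul_of_nonneg_right (by linarith) (by positivity)
    have hμ0 : 0 ≤ μ.re - 1 := by linarith
    have w2 : VB r * normSq (B r) ≤ (μ.re * VB r - X r * VB' r / 2) * normSq (B r) := by
      refine mul_le_mul_of_nonneg_right ?_ y2
      have := mul_nonneg hμ0 hVBn
      linarith
    have w3 : VB r * normSq (A r) ≤ (μ.re * VA r - X r * VA' r / 2) * normSq (A r) := by
      refine mul_le_mul_of_nonneg_right ?_ y1
      have e3 : X r * VA' r / 2 = X r * (VA' r - VB' r) / 2 + X r * VB' r / 2 := by ring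
      have hVA0 : 0 ≤ VA r := by linarith
      have := mul_nonneg hμ0 hVA0
      linarith
    have w4 := mul_le_mul_of_nonneg_left (add_le_add (add_le_add w1 w2) w3) hM
    simp only [hm1]
    refine le_trans (le_of_eq ?_) (w4.trans (le_of_eq ?_)) <;> ring
  rw [h.intEnergy] at hlow
  -- boundary algebra
  have x2 := hc.hX1 b hbm
  have hXp : 0 ≤ X b := le_trans (div_nonneg hb.le hC0.le) x2
  have x6 := hc.hV b hbm
  have yA := normSq_nonneg (A b)
  have e1 := SU_add_SV b M A B
  have e2 := SU_add_SV b M A1 B1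
  have e3 := RU_add_RV b (μ + c0) M A B A1 B1
  have q : 0 ≤ M b * X b / 2 * ((VA b - VB b) * normSq (A b)) := by positivity
  have e4 : (X b / 4 * (SU b M A1 B1 - VB b * SU b M A B) + RU b (μ + c0) M A B A1 B1 / 2)
      + (X b / 4 * (SV b M A1 B1 - VB b * SV b M A B) + RV b (μ + c0) M A B A1 B1 / 2)
      = X b / 4 * ((SU b M A1 B1 + SV b M A1 B1) - VB b * (SU b M A B + SV b M A B))
        + (RU b (μ + c0) M A B A1 B1 + RV b (μ + c0) M A B A1 B1) / 2 := by ring
  rw [e4, e1, e2, e3]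
  refine hlow.trans ?_
  have e5 : X b / 4 * (2 * (M b * (normSq (A1 b) + normSq (B1 b)))
      - VB b * (2 * (M b * (normSq (A b) + normSq (B b)))))
      + 2 * (M b * (conj (μ + c0) * (A1 b * conj (A b) + B1 b * conj (B b))).re) / 2
      = M b * X b / 2 * (normSq (A1 b) + normSq (B1 b)
          - VA b * normSq (A b) - VB b * normSq (B b))
        + M b * (conj (μ + c0) * (A1 b * conj (A b) + B1 b * conj (B b))).re
        + M b * X b / 2 * ((VA b - VB b) * normSq (A b)) := by ring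
  rw [e5]
  linarith

/-- CLOSE II. `P_u = X/4 (T_u - VB S_u) + R_u/2` is the boundary energy of the component `u`. -/
theorem close_II (h : SysOn c0 μ M X VA VB M' X' VA' VB' A B A1 B1 A2 B2 b)
    (hc : Coef C n L b X VA VB X' VA' VB') (hμ : 1 ≤ μ.re) (hn : C ^ 2 ≤ n)
    {κ c5 ε : ℝ} (hκ : 1 ≤ κ) (hc5 : 0 < c5) (hc51 : c5 ≤ 1) (hε0 : 0 ≤ ε) (hε : 4 * ε < c5)
    (hu : (X b / 4 * (SU b M A1 B1 - VB b * SU b M A B) + RU b (μ + c0) M A B A1 B1 / 2 ≤
          ε * (En b M VB A B A1 B1 + κ ^ 3 * (SU b M A B + SV b M A B)) ∧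
        κ ^ 3 * SU b M A B ≤ ε * (En b M VB A B A1 B1 + κ ^ 3 * (SU b M A B + SV b M A B))) ∨
      X b / 4 * (SU b M A1 B1 - VB b * SU b M A B) + RU b (μ + c0) M A B A1 B1 / 2 ≤
        -(c5 * κ ^ 3 * SU b M A B)
          + ε * (En b M VB A B A1 B1 + κ ^ 3 * (SU b M A B + SV b M A B)))
    (hv : (X b / 4 * (SV b M A1 B1 - VB b * SV b M A B) + RV b (μ + c0) M A B A1 B1 / 2 ≤
          ε * (En b M VB A B A1 B1 + κ ^ 3 * (SU b M A B + SV b M A B)) ∧
        κ ^ 3 * SV b M A B ≤ ε * (En b M VB A B A1 B1 + κ ^ 3 * (SU b M A B + SV b M A B))) ∨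
      X b / 4 * (SV b M A1 B1 - VB b * SV b M A B) + RV b (μ + c0) M A B A1 B1 / 2 ≤
        -(c5 * κ ^ 3 * SV b M A B)
          + ε * (En b M VB A B A1 B1 + κ ^ 3 * (SU b M A B + SV b M A B))) :
    En b M VB A B A1 B1 = 0 ∧ SU b M A B = 0 ∧ SV b M A B = 0 := by
  have key := ineq_energy h hc hμ hn
  obtain ⟨su, sv⟩ := SU_nonneg h A B
  have hE0 := En_nonneg h hc
  generalize En b M VB A B A1 B1 = E at *
  generalize SU b M A B = Su at *
  generalize SV b M A B = Sv at *
  generalize X b / 4 * (SU b M A1 B1 - VB b * Su) + RU b (μ + c0) M A B A1 B1 / 2 = Bu at *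
  generalize X b / 4 * (SV b M A1 B1 - VB b * Sv) + RV b (μ + c0) M A B A1 B1 / 2 = Bv at *
  set Y := E + κ ^ 3 * (Su + Sv) with hY
  have hY0 : 0 ≤ Y := by positivity
  have hκ3 : 1 ≤ κ ^ 3 := one_le_pow₀ hκ
  have gen : ∀ {s B : ℝ}, 0 ≤ s → (B ≤ ε * Y ∧ κ ^ 3 * s ≤ ε * Y) ∨
      B ≤ -(c5 * κ ^ 3 * s) + ε * Y → c5 * (κ ^ 3 * s) ≤ -B + 2 * (ε * Y) := by
    intro s B hs hd
    have hεY : 0 ≤ ε * Y := by positivity
    rcases hd with ⟨h1, h2⟩ | h1
    · have h3 : c5 * (κ ^ 3 * s) ≤ 1 * (κ ^ 3 * s) :=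
        mul_le_mul_of_nonneg_right hc51 (by positivity)
      linarith
    · have e : c5 * κ ^ 3 * s = c5 * (κ ^ 3 * s) := by ring
      linarith
  have g1 := gen su hu
  have g2 := gen sv hv
  have g3 : c5 * E ≤ 1 * E := mul_le_mul_of_nonneg_right hc51 hE0
  have e : c5 * Y = c5 * E + c5 * (κ ^ 3 * Su) + c5 * (κ ^ 3 * Sv) := by rw [hY]; ring
  have g4 : c5 * Y ≤ 4 * ε * Y := by rw [e]; linarith
  have hY1 : Y = 0 := by
    rcases hY0.eq_or_lt with h1 | h1
    · exact h1.symm
    · exact absurd (le_of_mul_le_mul_right g4 h1) (by linarith)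
  have hκS : κ ^ 3 * (Su + Sv) = 0 := by
    have : 0 ≤ κ ^ 3 * (Su + Sv) := by positivity
    linarith
  have hSS : Su + Sv = 0 := by
    rcases mul_eq_zero.1 hκS with h1 | h1
    · linarith
    · exact h1
  exact ⟨by linarith, by linarith, by linarith⟩

/-- If the energy and the boundary values vanish, the pair vanishes on `(0,b]`. -/
theorem vanish (h : SysOn c0 μ M X VA VB M' X' VA' VB' A B A1 B1 A2 B2 b)
    (hc : Coef C n L b X VA VB X' VA' VB') (hE : En b M VB A B A1 B1 = 0)
    (hu : SU b M A B = 0) (hv : SV b M A B = 0) :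
    ∀ r ∈ Ioc 0 b, A r = 0 ∧ B r = 0 := by
  have hb := h.hb
  have hbm : b ∈ Ioc 0 b := ⟨hb, le_rfl⟩
  have a1 := I1_nonneg h A1
  have b1 := I1_nonneg h B1
  have la := I2_nonneg h (V := VB) (fun r hr => hc.VBnonneg hr) A
  have lb := I2_nonneg h (V := VB) (fun r hr => hc.VBnonneg hr) B
  have hA0 : I1 b M A1 = 0 := by unfold En at hE; linarith
  have hB0 : I1 b M B1 = 0 := by unfold En at hE; linarith
  have e1 := SU_add_SV b M A B
  rw [hu, hv] at e1
  have hMb := h.Mpos b hbm
  have hs : normSq (A b) + normSq (B b) = 0 := by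
    have : M b * (normSq (A b) + normSq (B b)) = 0 := by linarith
    rcases mul_eq_zero.1 this with h1 | h1
    · exact absurd h1 hMb.ne'
    · exact h1
  have hAb : A b = 0 := by
    have := normSq_nonneg (B b)
    have := normSq_nonneg (A b)
    exact normSq_eq_zero.1 (by linarith)
  have hBb : B b = 0 := by
    have := normSq_nonneg (B b)
    have := normSq_nonneg (A b)
    exact normSq_eq_zero.1 (by linarith)
  -- a function with zero weighted Dirichlet integral is constant
  have gen : ∀ {F F1 : ℝ → ℂ}, (∀ r ∈ Ioc 0 b, HasDerivAt F (F1 r) r) →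
      ContinuousOn F1 (Ioc 0 b) → BC b (fun r => M r * normSq (F1 r)) → I1 b M F1 = 0 →
      F b = 0 → ∀ r ∈ Ioc 0 b, F r = 0 := by
    intro F F1 hF hF1c hbc hI hFb
    have hz : ∀ r ∈ Ioc 0 b, F1 r = 0 := by
      by_contra hcon
      push Not at hcon
      obtain ⟨r0, hr0, hne⟩ := hcon
      -- positive on a small interval
      have hint : IntegrableOn (fun r => M r * normSq (F1 r)) (Ioc 0 b) :=
        (intervalIntegrable_iff_integrableOn_Ioc_of_le hb.le).1 (hbc.intble hb)
      have hI' : ∫ r in Ioc 0 b, M r * normSq (F1 r) = 0 := by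
        rw [← intervalIntegral.integral_of_le hb.le]; exact hI
      have hnn : ∀ r ∈ Ioc 0 b, 0 ≤ M r * normSq (F1 r) := fun r hr =>
        mul_nonneg (h.Mpos r hr).le (normSq_nonneg _)
      have hae := (setIntegral_eq_zero_iff_of_nonneg_ae
        ((ae_restrict_iff' measurableSet_Ioc).2 (Filter.Eventually.of_forall hnn)) hint).1 hI'
      have hpos : 0 < normSq (F1 r0) := normSq_pos.2 hne
      -- by continuity nonzero near r0 within Ioc
      have hcw : ContinuousWithinAt (fun r => normSq (F1 r)) (Ioc 0 b) r0 :=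
        Complex.continuous_normSq.continuousAt.comp_continuousWithinAt (hF1c r0 hr0)
      have hev : ∀ᶠ r in nhdsWithin r0 (Ioc 0 b), 0 < normSq (F1 r) :=
        hcw.eventually (lt_mem_nhds hpos)
      obtain ⟨U, hU, hU0, hUsub⟩ := mem_nhdsWithin.1 hev
      have hae' : ∀ᵐ r, r ∈ Ioc 0 b → M r * normSq (F1 r) = 0 := by
        have := (ae_restrict_iff' measurableSet_Ioc).1 hae
        exact this
      -- U ∩ Ioc has positive measure
      obtain ⟨ε, hε, hball⟩ := Metric.isOpen_iff.1 hU r0 hU0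
      have hsubset : Ioo (max 0 (r0 - ε)) r0 ⊆ U ∩ Ioc 0 b := by
        intro x hx
        refine ⟨hball ?_, ⟨lt_of_le_of_lt (le_max_left _ _) hx.1, hx.2.le.trans hr0.2⟩⟩
        rw [Metric.mem_ball, Real.dist_eq, abs_lt]
        have := lt_of_le_of_lt (le_max_right 0 (r0 - ε)) hx.1
        constructor
        · linarith
        · linarith [hx.2]
      have hlt : max 0 (r0 - ε) < r0 := max_lt hr0.1 (by linarith)
      have hmeas : volume (Ioo (max 0 (r0 - ε)) r0) = 0 := by
        refine measure_mono_null ?_ (ae_iff.1 hae')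
        intro x hx
        have hx' := hsubset hx
        simp only [Set.mem_ofPred_eq, Classical.not_imp]
        refine ⟨hx'.2, ?_⟩
        have h1 : 0 < normSq (F1 x) := hUsub hx'
        exact (mul_pos (h.Mpos x hx'.2) h1).ne'
      rw [Real.volume_Ioo, ENNReal.ofReal_eq_zero] at hmeas
      linarith
    intro r hr
    have hsub : Icc r b ⊆ Ioc 0 b := fun x hx => ⟨lt_of_lt_of_le hr.1 hx.1, hx.2⟩
    have hcst := (convex_Icc r b).norm_image_sub_le_of_norm_hasDerivWithin_le (f := F) (f' := F1)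
      (C := 0) (fun x hx => (hF x (hsub hx)).hasDerivWithinAt)
      (fun x hx => by rw [hz x (hsub hx), norm_zero]) (left_mem_Icc.2 hr.2)
      (right_mem_Icc.2 hr.2)
    rw [zero_mul, hFb, zero_sub, norm_neg] at hcst
    exact norm_le_zero_iff.1 hcst
  intro r hr
  exact ⟨gen (fun r hr => (h.sys r hr).hA)
    (fun r hr => (h.sys r hr).hA1.continuousAt.continuousWithinAt) h.bcMA1 hA0 hAb r hr,
    gen (fun r hr => (h.sys r hr).hB)
    (fun r hr => (h.sys r hr).hB1.continuousAt.continuousWithinAt) h.bcMB1 hB0 hBb r hr⟩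

end

end Vale.Agent.P139.H657
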