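import Vale.Agent.P139.H657.Close3

/-!
CLOSE I with separate interior constant `C` and boundary constant `Cb` (the layer thickness `δ`
depends on `C` only).
-/

open Complex Set MeasureTheory
open scoped ComplexConjugate

namespace Vale.Agent.P139.H657

open Vale.Agent.P139.H498

/-- Final step with separate constants. -/
theorem close_aux3' {C C2 Cp θ D G n κ ε s1 E Su Sv T ia ib pa X err : ℝ}
    (hC : 1 ≤ C) (hC2 : 1 ≤ C2) (hG : 1 ≤ G) (hn : 1 ≤ n)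
    (hX0 : 0 ≤ X) (hEX : E ≤ X) (hX : X = E + κ ^ 2 * (Su + Sv)) (hs1 : 0 ≤ s1)
    (i1 : ia + ib ≤ 2 * C * X) (hia : 0 ≤ ia) (i3 : pa ≤ Cp * X)
    (i4 : ia ≤ (θ + D * Cp / n) * X)
    (h6 : T ≤ C2 * (κ ^ 2 * (Su + Sv)) + 2 * err)
    (h7 : err ≤ ε * X)
    (h8u : κ ^ 2 * Su ≤ s1 * X) (h8v : κ ^ 2 * Sv ≤ s1 * X)
    (h5 : E ≤ C * (κ ^ 2 * (Su + Sv) + T + pa / n + G * ia + (E + ib) / G)) :
    X ≤ (6 * C * C2 * s1 + 2 * C * ε +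
      C * (Cp / n + G * (θ + D * Cp / n) + (1 + 2 * C) / G)) * X := by
  have hn0 : 0 < n := by linarith
  have hG0 : 0 < G := by linarith
  have hC0 : 0 < C := by linarith
  have hC20 : 0 < C2 := by linarith
  have hκS : κ ^ 2 * (Su + Sv) ≤ 2 * (s1 * X) := by
    have : κ ^ 2 * (Su + Sv) = κ ^ 2 * Su + κ ^ 2 * Sv := by ring
    linarith
  have hT : T ≤ C2 * (2 * (s1 * X)) + 2 * (ε * X) := by
    have := mul_le_mul_of_nonneg_left hκS hC20.le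
    linarith
  have e1 : pa / n ≤ Cp / n * X := by
    rw [div_mul_eq_mul_div]; exact div_le_div_of_nonneg_right i3 hn0.le
  have e2 : G * ia ≤ G * ((θ + D * Cp / n) * X) :=
    mul_le_mul_of_nonneg_left i4 hG0.le
  have e3 : (E + ib) / G ≤ (1 + 2 * C) / G * X := by
    rw [div_mul_eq_mul_div]; refine div_le_div_of_nonneg_right ?_ hG0.le
    linarith
  have e4 : E ≤ C * (2 * (s1 * X) + (C2 * (2 * (s1 * X)) + 2 * (ε * X)) + Cp / n * X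
      + G * ((θ + D * Cp / n) * X) + (1 + 2 * C) / G * X) := by
    refine h5.trans (mul_le_mul_of_nonneg_left ?_ hC0.le)
    linarith
  have h20 : 0 ≤ s1 * X := by positivity
  have h22 : C * (s1 * X) ≤ C * C2 * (s1 * X) := by
    refine mul_le_mul_of_nonneg_right ?_ h20
    have := mul_le_mul_of_nonneg_left hC2 hC0.le
    linarith
  have h23 : 1 * (s1 * X) ≤ C * C2 * (s1 * X) := by
    refine mul_le_mul_of_nonneg_right ?_ h20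
    have := mul_le_mul hC hC2 (by norm_num) hC0.le
    linarith
  calc X = E + κ ^ 2 * (Su + Sv) := hX
    _ ≤ C * (2 * (s1 * X) + (C2 * (2 * (s1 * X)) + 2 * (ε * X)) + Cp / n * X
      + G * ((θ + D * Cp / n) * X) + (1 + 2 * C) / G * X) + 2 * (s1 * X) :=
        add_le_add e4 hκS
    _ = (2 * (C * C2 * (s1 * X)) + 2 * (C * (s1 * X)) + 2 * (1 * (s1 * X))) + 2 * C * ε * X +
      C * (Cp / n + G * (θ + D * Cp / n) + (1 + 2 * C) / G) * X := by ring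
    _ ≤ (6 * (C * C2 * (s1 * X))) + 2 * C * ε * X +
      C * (Cp / n + G * (θ + D * Cp / n) + (1 + 2 * C) / G) * X := by linarith
    _ = _ := by ring

/-- Smallness of the constant in `close_aux3'`. -/
theorem small_const' {C : ℝ} (hC : 1 ≤ C) : ∃ G θ : ℝ, 1 ≤ G ∧ 0 < θ ∧
    ∀ C2 D : ℝ, C ≤ C2 → 0 ≤ D → ∃ n0 K0 ε : ℝ, 1 ≤ n0 ∧ 1 ≤ K0 ∧ 0 < ε ∧ ε ≤ 1 ∧
      ∀ n κ : ℝ, n0 ≤ n → K0 ≤ κ →
        6 * C * C2 * (ε + C2 * ((C2 + 3) * ε + (1 + 9 * C2 ^ 3) / κ)) + 2 * C * ε +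
          C * (20 * C2 ^ 3 / n + G * (θ + D * (20 * C2 ^ 3) / n) + (1 + 2 * C) / G) ≤ 1 / 2 := by
  have hC0 : 0 < C := by linarith
  set G : ℝ := 16 * C * (1 + 2 * C) with hG
  have hG1 : 1 ≤ G := by
    have : 1 * 1 ≤ C * (1 + 2 * C) := mul_le_mul hC (by linarith) (by norm_num) hC0.le
    rw [hG]; linarith
  have hG0 : 0 < G := by linarith
  refine ⟨G, 1 / (16 * C * G), hG1, by positivity, fun C2 D hC2C hD => ?_⟩
  have hC2 : 1 ≤ C2 := hC.trans hC2C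
  have hC20 : 0 < C2 := by linarith
  set n0 : ℝ := 320 * C * C2 ^ 3 * (1 + G * D) + 1 with hn0
  set K0 : ℝ := 192 * C * C2 ^ 2 * (1 + 9 * C2 ^ 3) + 1 with hK0
  set ε : ℝ := 1 / (192 * C2 ^ 2 * (1 + C2 * (C2 + 3))) with hε
  have hε0 : 0 < ε := by positivity
  have hbig : 1 ≤ 192 * C2 ^ 2 * (1 + C2 * (C2 + 3)) := by
    have h1 : 1 ≤ C2 ^ 2 := one_le_pow₀ hC2
    have h2 : 1 ≤ 1 + C2 * (C2 + 3) := by
      have : 0 ≤ C2 * (C2 + 3) := by positivity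
      linarith
    have := mul_le_mul h1 h2 (by norm_num) (by positivity)
    linarith
  have hε1 : ε ≤ 1 := by
    rw [hε, div_le_one (by positivity)]; exact hbig
  refine ⟨n0, K0, ε, by rw [hn0]; have : 0 ≤ 320 * C * C2 ^ 3 * (1 + G * D) := by positivity
                        linarith,
    by rw [hK0]; have : 0 ≤ 192 * C * C2 ^ 2 * (1 + 9 * C2 ^ 3) := by positivity
       linarith, hε0, hε1, fun n κ hn hκ => ?_⟩
  have hn00 : 0 < n := by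
    have : 0 ≤ 320 * C * C2 ^ 3 * (1 + G * D) := by positivity
    linarith
  have hκ00 : 0 < κ := by
    have : 0 ≤ 192 * C * C2 ^ 2 * (1 + 9 * C2 ^ 3) := by positivity
    linarith
  -- pieces
  have p1 : 6 * C * C2 * (ε + C2 * ((C2 + 3) * ε)) ≤ 1 / 32 := by
    have e : 6 * C2 * C2 * (ε + C2 * ((C2 + 3) * ε)) = 1 / 32 := by
      rw [hε]; field_simp; ring
    have hpos : 0 ≤ C2 * (ε + C2 * ((C2 + 3) * ε)) := by positivity
    have := mul_le_mul_of_nonneg_right hC2C hpos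
    linarith
  have p2 : 6 * C * C2 * (C2 * ((1 + 9 * C2 ^ 3) / κ)) ≤ 1 / 32 := by
    have e : 6 * C * C2 * (C2 * ((1 + 9 * C2 ^ 3) / κ))
      = 6 * (C * C2 ^ 2 * (1 + 9 * C2 ^ 3)) / κ := by ring
    rw [e, div_le_iff₀ hκ00]
    have : K0 = 192 * (C * C2 ^ 2 * (1 + 9 * C2 ^ 3)) + 1 := by rw [hK0]; ring
    linarith
  have p3 : 2 * C * ε ≤ 1 / 32 := by
    have h1 : 1 ≤ C2 ^ 2 := one_le_pow₀ hC2
    have h3 : 1 + 1 * (C2 + 3) ≤ 1 + C2 * (C2 + 3) := by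
      have := mul_le_mul_of_nonneg_right hC2 (by linarith : (0:ℝ) ≤ C2 + 3)
      linarith
    have h4 : 1 * (C2 + 4) ≤ C2 ^ 2 * (1 + C2 * (C2 + 3)) :=
      mul_le_mul h1 (by linarith) (by positivity) (by positivity)
    rw [hε, mul_one_div, div_le_div_iff₀ (by positivity) (by norm_num)]
    linarith
  have p4 : C * (20 * C2 ^ 3 / n) ≤ 1 / 16 := by
    have e : C * (20 * C2 ^ 3 / n) = 20 * (C * C2 ^ 3) / n := by ring
    rw [e, div_le_iff₀ hn00]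
    have : 0 ≤ C * C2 ^ 3 * (G * D) := by positivity
    have e2 : n0 = 320 * (C * C2 ^ 3) + 320 * (C * C2 ^ 3 * (G * D)) + 1 := by
      rw [hn0]; ring
    linarith
  have p5 : C * (G * (D * (20 * C2 ^ 3) / n)) ≤ 1 / 16 := by
    have e : C * (G * (D * (20 * C2 ^ 3) / n)) = 20 * (C * C2 ^ 3 * (G * D)) / n := by ring
    rw [e, div_le_iff₀ hn00]
    have : 0 ≤ C * C2 ^ 3 := by positivity
    have e2 : n0 = 320 * (C * C2 ^ 3) + 320 * (C * C2 ^ 3 * (G * D)) + 1 := by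
      rw [hn0]; ring
    linarith
  have p6 : C * (G * (1 / (16 * C * G))) = 1 / 16 := by field_simp
  have p7 : C * ((1 + 2 * C) / G) = 1 / 16 := by rw [hG]; field_simp
  have expand : 6 * C * C2 * (ε + C2 * ((C2 + 3) * ε + (1 + 9 * C2 ^ 3) / κ)) + 2 * C * ε +
          C * (20 * C2 ^ 3 / n + G * (1 / (16 * C * G) + D * (20 * C2 ^ 3) / n) + (1 + 2 * C) / G)
      = 6 * C * C2 * (ε + C2 * ((C2 + 3) * ε)) + 6 * C * C2 * (C2 * ((1 + 9 * C2 ^ 3) / κ))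
        + 2 * C * ε + C * (20 * C2 ^ 3 / n) + C * (G * (D * (20 * C2 ^ 3) / n))
        + C * (G * (1 / (16 * C * G))) + C * ((1 + 2 * C) / G) := by ring
  rw [expand]
  linarith

/-- The oscillating component. -/
theorem osc_real {C Cb C' κ ν ε z X0 err Su Sv Tu Fu Fv : ℝ} (hC : 1 ≤ C) (hCb : C ≤ Cb)
    (hC' : C' = 4 * Cb ^ 4) (hκ1 : 1 ≤ κ) (hz0 : 0 ≤ z) (hν0 : 0 ≤ ν)
    (j2 : ν * z ≤ 9 * C' ^ 2 * X0) (herr : κ ^ 2 * err ≤ ε * X0) (herr0 : 0 ≤ err)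
    (hsu : 0 ≤ Su) (hsv : 0 ≤ Sv) (htu : 0 ≤ Tu)
    (hX : κ ^ 2 * (Su + Sv) ≤ X0) (hTu : Tu ≤ C' * (κ ^ 2 * Su) + err)
    (hF : |Fu + Fv| ≤ C * (Su + Sv) + 4 * C * z) (hFu : |Fu| ≤ κ * Su + Tu / κ)
    (hEv : κ ^ 2 * Su ≤ ε * X0) (hOs : κ * Sv ≤ Cb * (|Fv| + err)) (hκν : κ ^ 2 ≤ Cb * ν) :
    κ ^ 2 * Sv ≤ (C' * ((C' + 3) * ε + (1 + 9 * C' ^ 3) / κ)) * X0 := by
  have hC0 : 0 < C := by linarith
  have hκ0 : 0 < κ := by linarith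
  have hCb1 : 1 ≤ Cb := hC.trans hCb
  have hCb0 : 0 < Cb := by linarith
  have hCC4 : Cb ≤ Cb ^ 4 := by
    calc Cb = Cb ^ 1 := (pow_one Cb).symm
      _ ≤ Cb ^ 4 := pow_le_pow_right₀ hCb1 (by norm_num)
  have hC2C4 : Cb ^ 2 ≤ Cb ^ 4 := pow_le_pow_right₀ hCb1 (by norm_num)
  have hC'1 : 1 ≤ C' := by rw [hC']; linarith
  have hCC' : Cb ≤ C' := by rw [hC']; linarith [hCC4, hCb0]
  have hC4C2 : 4 * Cb ^ 2 ≤ C' := by rw [hC']; linarith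
  refine close_aux2 (C := C') (κ := κ) (ν := ν) (ε := ε) (Su := Su) (Sv := Sv) (Tu := Tu)
    (S := Su + Sv) (z := z) (X := X0) (err := err) hC'1 hκ1 hz0 (by linarith) hX j2 hTu herr
    herr0 hEv ?_ ?_
  · have g1 : |Fv| ≤ |Fu| + |Fu + Fv| := by
      have e : Fv = (Fu + Fv) - Fu := by ring
      calc |Fv| = |(Fu + Fv) - Fu| := by rw [← e]
        _ ≤ |Fu + Fv| + |Fu| := abs_sub _ _
        _ = _ := by ring
    have hTuκ : 0 ≤ Tu / κ := by positivity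
    have g2 : |Fv| + err ≤ κ * Su + Tu / κ + C * (Su + Sv) + 4 * C * z + err := by linarith
    have g3 := mul_le_mul_of_nonneg_left g2 hCb0.le
    have hκSu : 0 ≤ κ * Su := by positivity
    have g4 : Cb * (κ * Su + Tu / κ + C * (Su + Sv) + 4 * C * z + err) ≤
        4 * Cb ^ 2 * (κ * Su + Tu / κ + (Su + Sv) + z + err) := by
      have hCC : Cb ≤ Cb ^ 2 := by
        have := mul_le_mul_of_nonneg_left hCb1 hCb0.le
        linarith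
      have hCC2 : Cb * C ≤ Cb ^ 2 := by
        have := mul_le_mul_of_nonneg_left hCb hCb0.le
        linarith
      have r1 := mul_le_mul_of_nonneg_right hCC (by linarith : 0 ≤ κ * Su + Tu / κ + err)
      have r5 := mul_le_mul_of_nonneg_right hCC2 (by linarith : 0 ≤ Su + Sv)
      have r6 := mul_le_mul_of_nonneg_right hCC2 hz0
      have r2 : 0 ≤ Cb ^ 2 * (κ * Su + Tu / κ + err) := by positivity
      have r3 : 0 ≤ Cb ^ 2 * (Su + Sv) := by positivity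
      have r4 : 0 ≤ Cb ^ 2 * z := by positivity
      have e1 : Cb * (κ * Su + Tu / κ + C * (Su + Sv) + 4 * C * z + err) =
        Cb * (κ * Su + Tu / κ + err) + Cb * C * (Su + Sv) + 4 * (Cb * C * z) := by ring
      have e2 : 4 * Cb ^ 2 * (κ * Su + Tu / κ + (Su + Sv) + z + err) =
        4 * (Cb ^ 2 * (κ * Su + Tu / κ + err)) + 4 * (Cb ^ 2 * (Su + Sv))
          + 4 * (Cb ^ 2 * z) := by
        ring
      rw [e1, e2]
      linarith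
    have g5 : 4 * Cb ^ 2 * (κ * Su + Tu / κ + (Su + Sv) + z + err) ≤
        C' * (κ * Su + Tu / κ + (Su + Sv) + z + err) :=
      mul_le_mul_of_nonneg_right hC4C2 (by linarith)
    linarith
  · have := mul_le_mul_of_nonneg_right hCC' hν0
    linarith

/-- CLOSE I, real-number form. -/
theorem close_real {C Ci C' Cb θ G D n κ ε ν E Su Sv Tu Tv Fu Fv z pa iA iB err : ℝ}
    (hC : 1 ≤ C) (hCb : C ≤ Cb) (hCi : Ci = 4 * C ^ 4) (hC' : C' = 4 * Cb ^ 4)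
    (hG1 : 1 ≤ G) (hθ : 0 < θ) (hD0 : 0 ≤ D) (hn1 : 1 ≤ n) (hκ1 : 1 ≤ κ)
    (hε0 : 0 < ε) (hε1 : ε ≤ 1)
    (hsc : 6 * Ci * C' * (ε + C' * ((C' + 3) * ε + (1 + 9 * C' ^ 3) / κ)) + 2 * Ci * ε +
          Ci * (20 * C' ^ 3 / n + G * (θ + D * (20 * C' ^ 3) / n) + (1 + 2 * Ci) / G) ≤ 1 / 2)
    (su : 0 ≤ Su) (sv : 0 ≤ Sv) (tu : 0 ≤ Tu) (tv : 0 ≤ Tv) (hE0 : 0 ≤ E) (ia : 0 ≤ iA)
    (ib : 0 ≤ iB) (hz : z ≤ iA + iB) (hz0 : 0 ≤ z) (hν0 : 0 ≤ ν)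
    (i1 : iA + iB ≤ C ^ 4 * (E + (Su + Sv)))
    (i2 : ν * z ≤ 4 * C ^ 4 * (E + iA + iB + κ * (Su + Sv) + (Tu + Tv) / κ))
    (i3 : pa ≤ 4 * C ^ 4 * (ν * z + z + E + iA + iB + κ * (Su + Sv) + (Tu + Tv) / κ))
    (i4' : iA ≤ θ * E + D / n * pa)
    (i5 : E ≤ 4 * C ^ 4 * (κ ^ 2 * (Su + Sv) + (Tu + Tv) + pa / n + G * iA + (E + iB) / G))
    (i6 : |Fu + Fv| ≤ C * (Su + Sv) + 4 * C * z)
    (fu : |Fu| ≤ κ * Su + Tu / κ) (fv : |Fv| ≤ κ * Sv + Tv / κ)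
    (herr0 : 0 ≤ err)
    (hTu : Tu ≤ Cb * κ ^ 2 * Su + err) (hTv : Tv ≤ Cb * κ ^ 2 * Sv + err)
    (herr : κ ^ 2 * err ≤ ε * (E + κ ^ 2 * (Su + Sv)))
    (hd : ((κ ^ 2 * Su ≤ ε * (E + κ ^ 2 * (Su + Sv)) ∧
          (κ ^ 2 * Sv ≤ ε * (E + κ ^ 2 * (Su + Sv)) ∨
            (κ * Sv ≤ Cb * (|Fv| + err) ∧ κ ^ 2 ≤ Cb * ν))) ∨
        (κ ^ 2 * Sv ≤ ε * (E + κ ^ 2 * (Su + Sv)) ∧
          (κ * Su ≤ Cb * (|Fu| + err) ∧ κ ^ 2 ≤ Cb * ν)))) :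
    E = 0 ∧ Su = 0 ∧ Sv = 0 := by
  have hC0 : 0 < C := by linarith
  have hκ0 : 0 < κ := by linarith
  have hG0 : 0 < G := by linarith
  have hC4one : 1 ≤ C ^ 4 := one_le_pow₀ hC
  have hCi1 : 1 ≤ Ci := by rw [hCi]; linarith
  have hCi0 : 0 < Ci := by linarith
  have hCb1 : 1 ≤ Cb := hC.trans hCb
  have hCb0 : 0 < Cb := by linarith
  have hCC4 : Cb ≤ Cb ^ 4 := by
    calc Cb = Cb ^ 1 := (pow_one Cb).symm
      _ ≤ Cb ^ 4 := pow_le_pow_right₀ hCb1 (by norm_num)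
  have hC'1 : 1 ≤ C' := by rw [hC']; linarith
  have hCC' : Cb ≤ C' := by rw [hC']; linarith [hCC4, hCb0]
  have hC'0 : 0 < C' := by linarith
  have hCiC' : Ci ≤ C' := by
    rw [hCi, hC']
    have : C ^ 4 ≤ Cb ^ 4 := pow_le_pow_left₀ hC0.le hCb 4
    linarith
  rw [← hCi] at i2 i3 i5
  set X0 := E + κ ^ 2 * (Su + Sv) with hX0
  have hS0 : 0 ≤ Su + Sv := by linarith
  have hX00 : 0 ≤ X0 := by positivity
  have hκ2 : 1 ≤ κ ^ 2 := one_le_pow₀ hκ1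
  have herrle : err ≤ ε * X0 := by
    have : 1 * err ≤ κ ^ 2 * err := mul_le_mul_of_nonneg_right hκ2 herr0
    linarith
  have herrX : err ≤ X0 := by
    have : ε * X0 ≤ 1 * X0 := mul_le_mul_of_nonneg_right hε1 hX00
    linarith
  have hκSu : 0 ≤ κ ^ 2 * Su := by positivity
  have hκSv : 0 ≤ κ ^ 2 * Sv := by positivity
  have hTu' : Tu ≤ C' * (κ ^ 2 * Su) + err := by
    have := mul_le_mul_of_nonneg_right hCC' hκSu
    have e : Cb * κ ^ 2 * Su = Cb * (κ ^ 2 * Su) := by ring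
    linarith
  have hTv' : Tv ≤ C' * (κ ^ 2 * Sv) + err := by
    have := mul_le_mul_of_nonneg_right hCC' hκSv
    have e : Cb * κ ^ 2 * Sv = Cb * (κ ^ 2 * Sv) := by ring
    linarith
  have hT : Tu + Tv ≤ C' * (κ ^ 2 * (Su + Sv)) + 2 * err := by
    have e : C' * (κ ^ 2 * (Su + Sv)) = C' * (κ ^ 2 * Su) + C' * (κ ^ 2 * Sv) := by ring
    linarith
  have i1i : iA + iB ≤ Ci * (E + (Su + Sv)) := by
    have : C ^ 4 * (E + (Su + Sv)) ≤ Ci * (E + (Su + Sv)) :=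
      mul_le_mul_of_nonneg_right (by rw [hCi]; linarith [pow_pos hC0 4]) (by linarith)
    linarith
  have i1' : iA + iB ≤ C' * (E + (Su + Sv)) := by
    have : Ci * (E + (Su + Sv)) ≤ C' * (E + (Su + Sv)) :=
      mul_le_mul_of_nonneg_right hCiC' (by linarith)
    linarith
  have hκSuv : 0 ≤ κ * (Su + Sv) := by positivity
  have hTκ0 : 0 ≤ (Tu + Tv) / κ := by positivity
  have hνz0 : 0 ≤ ν * z := mul_nonneg hν0 hz0
  have i2' := i2.trans (mul_le_mul_of_nonneg_right hCiC'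
    (by linarith : 0 ≤ E + iA + iB + κ * (Su + Sv) + (Tu + Tv) / κ))
  have i3' := i3.trans (mul_le_mul_of_nonneg_right hCiC'
    (by linarith : 0 ≤ ν * z + z + E + iA + iB + κ * (Su + Sv) + (Tu + Tv) / κ))
  obtain ⟨j1, j2, j3, j4⟩ := close_aux1 (C := C') (θ := θ) (D := D) (n := n)
    (κ := κ) (ν := ν) (E := E) (S := Su + Sv) (T := Tu + Tv) (ia := iA) (ib := iB) (pa := pa)
    (z := z) (X := X0) (err := err) hC'1 hθ.le hD0 hn1 hκ1 hE0 hS0 herrX hX0 hz i1' i2' i3' i4' hT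
  have hκSX : κ ^ 2 * (Su + Sv) ≤ X0 := by linarith
  set s1 := ε + C' * ((C' + 3) * ε + (1 + 9 * C' ^ 3) / κ) with hs1
  have hs1pos : 0 ≤ C' * ((C' + 3) * ε + (1 + 9 * C' ^ 3) / κ) := by positivity
  have hs10 : 0 ≤ s1 := by rw [hs1]; linarith
  have hεs1 : ε * X0 ≤ s1 * X0 := mul_le_mul_of_nonneg_right (by rw [hs1]; linarith) hX00
  have hs1' : C' * ((C' + 3) * ε + (1 + 9 * C' ^ 3) / κ) * X0 ≤ s1 * X0 :=
    mul_le_mul_of_nonneg_right (by rw [hs1]; linarith) hX00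
  have h8 : κ ^ 2 * Su ≤ s1 * X0 ∧ κ ^ 2 * Sv ≤ s1 * X0 := by
    rcases hd with ⟨hu, hv | ⟨hv1, hv2⟩⟩ | ⟨hv, hu1, hu2⟩
    · exact ⟨hu.trans hεs1, hv.trans hεs1⟩
    · exact ⟨hu.trans hεs1, (osc_real hC hCb hC' hκ1 hz0 hν0 j2 herr herr0 su sv tu hκSX hTu' i6 fu hu hv1 hv2).trans hs1'⟩
    · refine ⟨(osc_real hC hCb hC' hκ1 hz0 hν0 j2 herr herr0 sv su tv
        (by rw [add_comm]; exact hκSX) hTv' ?_ fv hv hu1 hu2).trans hs1',
        hv.trans hεs1⟩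
      rw [add_comm Fv Fu, add_comm Sv Su]
      exact i6
  have j1' : iA + iB ≤ 2 * Ci * X0 := by
    have hSX : Su + Sv ≤ X0 := by
      have : 1 * (Su + Sv) ≤ κ ^ 2 * (Su + Sv) := mul_le_mul_of_nonneg_right hκ2 hS0
      linarith
    have := mul_le_mul_of_nonneg_left (by linarith : E + (Su + Sv) ≤ 2 * X0) hCi0.le
    linarith
  have fin := close_aux3' (C := Ci) (C2 := C') (Cp := 20 * C' ^ 3) (θ := θ)
    (D := D) (G := G) (n := n) (κ := κ)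
    (ε := ε) (s1 := s1) (E := E) (Su := Su) (Sv := Sv) (T := Tu + Tv) (ia := iA) (ib := iB)
    (pa := pa) (X := X0) (err := err) hCi1 hC'1 hG1 hn1 hX00 (by linarith) hX0 hs10 j1' ia j3 j4
    hT herrle h8.1 h8.2 i5
  have fin2 : X0 ≤ 1 / 2 * X0 := fin.trans (mul_le_mul_of_nonneg_right hsc hX00)
  have hX0z : X0 = 0 := by linarith
  have hκS : κ ^ 2 * (Su + Sv) = 0 := by
    have : 0 ≤ κ ^ 2 * (Su + Sv) := by positivity
    linarith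
  have hSS : Su + Sv = 0 := by
    rcases mul_eq_zero.1 hκS with h1 | h1
    · linarith
    · exact h1
  exact ⟨by linarith, by linarith, by linarith⟩


/-- CLOSE I with separate constants. -/
theorem close_I' {C : ℝ} (hC : 1 ≤ C) : ∃ δ : ℝ, 0 < δ ∧ ∀ Cb η : ℝ, C ≤ Cb → 0 < η →
    ∃ n0 K0 ε : ℝ, 1 ≤ n0 ∧ 1 ≤ K0 ∧ 0 < ε ∧ ε ≤ 1 ∧
    ∀ {c0 : ℝ} {μ : ℂ} {M X VA VB M' X' VA' VB' : ℝ → ℝ} {A B A1 B1 A2 B2 : ℝ → ℂ}
      {b n L κ err s0 r0 m1 : ℝ},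
      SysOn c0 μ M X VA VB M' X' VA' VB' A B A1 B1 A2 B2 b →
      Coef C n L b X VA VB X' VA' VB' → 1 / C ≤ c0 → c0 ≤ C → |μ.re| ≤ C →
      Layer C n η δ b M VA VB s0 r0 m1 → n0 ≤ n → K0 ≤ κ → ‖μ + c0‖ ≤ κ ^ 2 →
      0 ≤ err →
      SU b M A1 B1 ≤ Cb * κ ^ 2 * SU b M A B + err →
      SV b M A1 B1 ≤ Cb * κ ^ 2 * SV b M A B + err →
      κ ^ 2 * err ≤ ε * (En b M VB A B A1 B1 + κ ^ 2 * (SU b M A B + SV b M A B)) →
      ((κ ^ 2 * SU b M A B ≤ ε * (En b M VB A B A1 B1 + κ ^ 2 * (SU b M A B + SV b M A B)) ∧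
          (κ ^ 2 * SV b M A B ≤ ε * (En b M VB A B A1 B1 + κ ^ 2 * (SU b M A B + SV b M A B)) ∨
            (κ * SV b M A B ≤ Cb * (|FV b M A B A1 B1| + err) ∧ κ ^ 2 ≤ Cb * ‖μ + c0‖))) ∨
        (κ ^ 2 * SV b M A B ≤ ε * (En b M VB A B A1 B1 + κ ^ 2 * (SU b M A B + SV b M A B)) ∧
          (κ * SU b M A B ≤ Cb * (|FU b M A B A1 B1| + err) ∧ κ ^ 2 ≤ Cb * ‖μ + c0‖))) →
      En b M VB A B A1 B1 = 0 ∧ SU b M A B = 0 ∧ SV b M A B = 0 := by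
  have hC0 : 0 < C := by linarith
  set Ci : ℝ := 4 * C ^ 4 with hCi
  have hC4one : 1 ≤ C ^ 4 := one_le_pow₀ hC
  have hCi1 : 1 ≤ Ci := by rw [hCi]; linarith
  have hCi0 : 0 < Ci := by linarith
  obtain ⟨G, θ, hG1, hθ, hsm⟩ := small_const' hCi1
  refine ⟨θ / (2 * C ^ 2), by positivity, fun Cb η hCb hη => ?_⟩
  have hCb1 : 1 ≤ Cb := hC.trans hCb
  have hCb0 : 0 < Cb := by linarith
  set C' : ℝ := 4 * Cb ^ 4 with hC'
  have hCiC' : Ci ≤ C' := by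
    rw [hCi, hC']
    have : C ^ 4 ≤ Cb ^ 4 := pow_le_pow_left₀ hC0.le hCb 4
    linarith
  obtain ⟨n0, K0, ε, hn0, hK0, hε0, hε1, hsmall⟩ := hsm C' (C + 2 * C ^ 3 / η) hCiC'
    (by positivity)
  refine ⟨n0, K0, ε, hn0, hK0, hε0, hε1, ?_⟩
  intro c0 μ M X VA VB M' X' VA' VB' A B A1 B1 A2 B2 b n L κ err s0 r0 m1 h hc hc0 hc0' hμ hly
    hn hκ hν herr0 hTu hTv herr hd
  have hκ1 : 1 ≤ κ := by linarith
  have hκ0 : 0 < κ := by linarith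
  have hn1 : 1 ≤ n := by linarith
  have hG0 : 0 < G := by linarith
  have hsc := hsmall n κ hn hκ
  obtain ⟨su, sv⟩ := SU_nonneg h A B
  obtain ⟨tu, tv⟩ := SU_nonneg h A1 B1
  have hE0 := En_nonneg h hc
  have ia := I1_nonneg h A
  have ib := I1_nonneg h B
  have hz := Zc_le h
  have hz0 := norm_nonneg (Zc b M A B)
  have i1 := ineq_h1 h hc hc0
  obtain ⟨i2, i3⟩ := interior_all h hc hc0 hc0' hκ1 rfl
  have i4 := ineq_h4 h hc hly.hs0 hη hly.hsr hly.hr hly.hδ hly.hbC hly.hm1 hly.hM hly.hV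
  have i5 := mor_all h hc hc0 hc0' hμ hκ1 hν hG0
  have i6 := flux_all h hc hμ
  have fu := abs_FU_le b (h.Mpos b ⟨h.hb, le_rfl⟩).le A B A1 B1 hκ0
  have fv := abs_FV_le b (h.Mpos b ⟨h.hb, le_rfl⟩).le A B A1 B1 hκ0
  have i4' : I1 b M A ≤ θ * En b M VB A B A1 B1
      + (C + 2 * C ^ 3 / η) / n * I2 b M (fun r => VA r - VB r) A := by
    have e : 2 * C ^ 2 * (θ / (2 * C ^ 2)) = θ := by field_simp
    rw [e] at i4
    exact i4
  have hD0 : 0 ≤ C + 2 * C ^ 3 / η := by positivity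
  exact close_real hC hCb hCi hC' hG1 hθ hD0 hn1 hκ1 hε0 hε1 hsc su sv tu tv hE0 ia ib hz hz0
    (norm_nonneg _) i1 i2 i3 i4' i5 i6 fu fv herr0 hTu hTv herr hd

end Vale.Agent.P139.H657
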