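import Vale.Agent.P139.H657.Close4
import Vale.Agent.P139.H657.Close5
import Vale.Agent.P139.H340.Ev
import Vale.Agent.P139.H399.BdryAt

/-!
The core of the high frequency exclusion [S1]: one pair, one radius `b`.
-/

open Complex Set MeasureTheory
open scoped ComplexConjugate

namespace Vale.Agent.P139.H657

open Vale.Agent.P139.H498 Vale.Agent.P139.H399

section

variable {c0 : ℝ} {μ : ℂ} {M X VA VB M' X' VA' VB' : ℝ → ℝ} {A B A1 B1 A2 B2 : ℝ → ℂ} {b : ℝ}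
variable {C n L : ℝ}

theorem int_dir_le (h : SysOn c0 μ M X VA VB M' X' VA' VB' A B A1 B1 A2 B2 b)
    (hc : Coef C n L b X VA VB X' VA' VB') :
    (∫ r in (0 : ℝ)..b, M r * (normSq (A1 r) + normSq (B1 r))) ≤ En b M VB A B A1 B1 := by
  have hb := h.hb
  have e : (∫ r in (0 : ℝ)..b, M r * (normSq (A1 r) + normSq (B1 r)))
      = I1 b M A1 + I1 b M B1 := by
    rw [I1, I1, ← intervalIntegral.integral_add (h.bcMA1.intble hb) (h.bcMB1.intble hb)]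
    congr 1
    funext r
    ring
  have la := I2_nonneg h (V := VB) (fun r hr => hc.VBnonneg hr) A
  have lb := I2_nonneg h (V := VB) (fun r hr => hc.VBnonneg hr) B
  rw [e]
  unfold En
  linarith

theorem int_dir_nonneg (h : SysOn c0 μ M X VA VB M' X' VA' VB' A B A1 B1 A2 B2 b) :
    0 ≤ ∫ r in (0 : ℝ)..b, M r * (normSq (A1 r) + normSq (B1 r)) :=
  int_nonneg h.hb fun r hr => mul_nonneg (h.Mpos r hr).le
    (add_nonneg (normSq_nonneg _) (normSq_nonneg _))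

end

/-- Evanescent components and errors are small. -/
theorem ev_all {C Cb c3 h ε3 : ℝ} (hC : 1 ≤ C) (hCb : 0 < Cb) (hc3 : 0 < c3) (hh : 0 < h)
    (hε3 : 0 < ε3) : ∃ K0 ε2 : ℝ, 1 ≤ K0 ∧ 0 < ε2 ∧
    ∀ {c0 : ℝ} {μ : ℂ} {M X VA VB M' X' VA' VB' : ℝ → ℝ} {A B A1 B1 A2 B2 : ℝ → ℂ}
      {b n L κ D eD e1 : ℝ},
      SysOn c0 μ M X VA VB M' X' VA' VB' A B A1 B1 A2 B2 b →
      Coef C n L b X VA VB X' VA' VB' → 1 / C ≤ c0 → K0 ≤ κ → h < b →
      (∀ r ∈ Icc (b - h) b, 1 / C ≤ M r ∧ M r ≤ C) →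
      (∀ r ∈ Icc (b - h) b, |M' r| ≤ C * M r) →
      (∀ r ∈ Icc (b - h) b, VA r - VB r ≤ e1) →
      0 ≤ D → D ≤ eD * (I1 b M A + I1 b M B) → 0 ≤ eD → 0 ≤ e1 →
      κ ^ 6 * eD ≤ ε2 → κ ^ 6 * e1 ≤ ε2 →
      (κ ^ 3 * D ≤ ε3 * (En b M VB A B A1 B1 + (SU b M A B + SV b M A B))) ∧
      ((c3 * κ ^ 2 ≤ L / b ^ 2 + μ.im) →
        M b * ((A1 b + I * B1 b) * conj (A b + I * B b)).re ≤ Cb * D →
        κ ^ 3 * SU b M A B ≤ ε3 * (En b M VB A B A1 B1 + (SU b M A B + SV b M A B))) ∧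
      ((c3 * κ ^ 2 ≤ L / b ^ 2 - μ.im) →
        M b * ((A1 b - I * B1 b) * conj (A b - I * B b)).re ≤ Cb * D →
        κ ^ 3 * SV b M A B ≤ ε3 * (En b M VB A B A1 B1 + (SU b M A B + SV b M A B))) := by
  have hC0 : 0 < C := by linarith
  obtain ⟨K1, C', hK1, hC', H⟩ := Vale.Agent.P139.H340.ev_sysOn C c3 h (1 / C) C (ε3 / 3) hc3 hh
    (by positivity) (by positivity)
  refine ⟨max K1 1, min (ε3 / (3 * (C' * Cb * C ^ 4 + C ^ 4))) (ε3 / (3 * C')),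
    le_max_right _ _, lt_min (by positivity) (by positivity), ?_⟩
  intro c0 μ M X VA VB M' X' VA' VB' A B A1 B1 A2 B2 b n L κ D eD e1 hs hc hc0 hκ hhb hM hM' hV
    hD hDe heD he1 hκD hκe1
  have hκ1 : 1 ≤ κ := (le_max_right _ _).trans hκ
  have hκK : K1 ≤ κ := (le_max_left _ _).trans hκ
  have hκ0 : 0 < κ := by linarith
  obtain ⟨su, sv⟩ := SU_nonneg hs A B
  have hE0 := En_nonneg hs hc
  have i1 := ineq_h1 hs hc hc0
  have hdir := int_dir_le hs hc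
  have hdir0 := int_dir_nonneg hs
  have hsub : ∀ r ∈ Icc (b - h) b, r ∈ Ioc 0 b := fun r hr => ⟨by linarith [hr.1], hr.2⟩
  set Y := En b M VB A B A1 B1 + (SU b M A B + SV b M A B) with hY
  have hY0 : 0 ≤ Y := by positivity
  -- powers
  have hp2 : κ ^ 2 ≤ κ ^ 6 := pow_le_pow_right₀ hκ1 (by norm_num)
  have hp3 : κ ^ 3 ≤ κ ^ 6 := pow_le_pow_right₀ hκ1 (by norm_num)
  have hp1 : κ ≤ κ ^ 6 := by
    calc κ = κ ^ 1 := (pow_one κ).symm
      _ ≤ κ ^ 6 := pow_le_pow_right₀ hκ1 (by norm_num)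
  have hεa : κ ^ 6 * eD ≤ ε3 / (3 * (C' * Cb * C ^ 4 + C ^ 4)) := hκD.trans (min_le_left _ _)
  have hεb : κ ^ 6 * e1 ≤ ε3 / (3 * C') := hκe1.trans (min_le_right _ _)
  have hDY : D ≤ eD * (C ^ 4 * Y) := hDe.trans (mul_le_mul_of_nonneg_left i1 heD)
  have hden : 0 < C' * Cb * C ^ 4 + C ^ 4 := by positivity
  have key1 : (C' * Cb * C ^ 4 + C ^ 4) * (κ ^ 6 * eD) ≤ ε3 / 3 := by
    have := mul_le_mul_of_nonneg_left hεa hden.le
    refine this.trans (le_of_eq ?_)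
    field_simp
  have key2 : C' * (κ ^ 6 * e1) ≤ ε3 / 3 := by
    have := mul_le_mul_of_nonneg_left hεb hC'.le
    refine this.trans (le_of_eq ?_)
    field_simp
  have hκ6eD : 0 ≤ κ ^ 6 * eD := by positivity
  have hκ6e1 : 0 ≤ κ ^ 6 * e1 := by positivity
  -- `κ^3 D`
  have r1 : κ ^ 6 * D ≤ C ^ 4 * (κ ^ 6 * eD) * Y := by
    have := mul_le_mul_of_nonneg_left hDY (by positivity : 0 ≤ κ ^ 6)
    refine this.trans (le_of_eq ?_)
    ring
  have r1' : κ ^ 3 * D ≤ κ ^ 6 * D := mul_le_mul_of_nonneg_right hp3 hD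
  have r1'' : κ ^ 2 * D ≤ κ ^ 6 * D := mul_le_mul_of_nonneg_right hp2 hD
  have out1 : κ ^ 3 * D ≤ ε3 * Y := by
    have q1 : C ^ 4 * (κ ^ 6 * eD) ≤ ε3 := by
      have : 0 ≤ C' * Cb * C ^ 4 * (κ ^ 6 * eD) := by positivity
      have e : (C' * Cb * C ^ 4 + C ^ 4) * (κ ^ 6 * eD)
        = C' * Cb * C ^ 4 * (κ ^ 6 * eD) + C ^ 4 * (κ ^ 6 * eD) := by ring
      linarith
    have q2 := mul_le_mul_of_nonneg_right q1 hY0
    linarith
  have r2 : C' * κ ^ 2 * (Cb * D) ≤ ε3 / 3 * Y := by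
    have q1 : C' * κ ^ 2 * (Cb * D) = C' * Cb * (κ ^ 2 * D) := by ring
    have q2 : C' * Cb * (κ ^ 2 * D) ≤ C' * Cb * (C ^ 4 * (κ ^ 6 * eD) * Y) :=
      mul_le_mul_of_nonneg_left (r1''.trans r1) (by positivity)
    have q3 : C' * Cb * C ^ 4 * (κ ^ 6 * eD) ≤ ε3 / 3 := by
      have : 0 ≤ C ^ 4 * (κ ^ 6 * eD) := by positivity
      have e : (C' * Cb * C ^ 4 + C ^ 4) * (κ ^ 6 * eD)
        = C' * Cb * C ^ 4 * (κ ^ 6 * eD) + C ^ 4 * (κ ^ 6 * eD) := by ring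
      linarith
    have q4 := mul_le_mul_of_nonneg_right q3 hY0
    have e2 : C' * Cb * (C ^ 4 * (κ ^ 6 * eD) * Y) = C' * Cb * C ^ 4 * (κ ^ 6 * eD) * Y := by ring
    linarith
  have r3 : C' * κ * e1 ≤ ε3 / 3 := by
    have q1 : κ * e1 ≤ κ ^ 6 * e1 := mul_le_mul_of_nonneg_right hp1 he1
    have q2 := mul_le_mul_of_nonneg_left q1 hC'.le
    have e : C' * κ * e1 = C' * (κ * e1) := by ring
    linarith
  have hCbD : 0 ≤ Cb * D := by positivity
  have hXb : ∀ r ∈ Icc (b - h) b, |X r| ≤ C := fun r hr => hc.absX (hsub r hr)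
  have hVV : ∀ r ∈ Icc (b - h) b, VB r ≤ VA r ∧ VA r ≤ VB r + e1 := fun r hr =>
    ⟨by linarith [hc.hV r (hsub r hr)], by linarith [hV r hr]⟩
  obtain ⟨H1, H2⟩ := H hκK hhb hs hM hM' hXb hVV hCbD
  have hVBr : ∀ r ∈ Icc (b - h) b, L / b ^ 2 ≤ VB r := fun r hr => by
    rw [hc.hVB r (hsub r hr)]
    have h0 := (hsub r hr).1
    exact div_le_div_of_nonneg_left hc.hL (by positivity) (pow_le_pow_left₀ h0.le hr.2 2)
  refine ⟨out1, fun hev hre => ?_, fun hev hre => ?_⟩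
  · have g := H1 (fun r hr => hev.trans (by linarith [hVBr r hr])) hre
    change κ ^ 3 * SU b M A B ≤ _ + _ + C' * κ * e1 * (_ + SV b M A B) at g
    have g1 : ε3 / 3 * (∫ r in (0 : ℝ)..b, M r * (normSq (A1 r) + normSq (B1 r))) ≤
        ε3 / 3 * Y := mul_le_mul_of_nonneg_left (by rw [hY]; linarith) (by positivity)
    have g2 : C' * κ * e1 * ((∫ r in (0 : ℝ)..b, M r * (normSq (A1 r) + normSq (B1 r)))
        + SV b M A B) ≤ ε3 / 3 * Y :=
      mul_le_mul r3 (by rw [hY]; linarith) (by positivity) (by positivity)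
    linarith
  · have g := H2 (fun r hr => hev.trans (by linarith [hVBr r hr])) hre
    change κ ^ 3 * SV b M A B ≤ _ + _ + C' * κ * e1 * (_ + SU b M A B) at g
    have g1 : ε3 / 3 * (∫ r in (0 : ℝ)..b, M r * (normSq (A1 r) + normSq (B1 r))) ≤
        ε3 / 3 * Y := mul_le_mul_of_nonneg_left (by rw [hY]; linarith) (by positivity)
    have g2 : C' * κ * e1 * ((∫ r in (0 : ℝ)..b, M r * (normSq (A1 r) + normSq (B1 r)))
        + SU b M A B) ≤ ε3 / 3 * Y :=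
      mul_le_mul r3 (by rw [hY]; linarith) (by positivity) (by positivity)
    linarith

/-- Boundary energy of an evanescent component. -/
theorem P_ev_le {C Cb κ S T R X s D Y ε3 : ℝ} (hC : 1 ≤ C) (hCb : 0 ≤ Cb) (hκ : 1 ≤ κ)
    (hX0 : 0 ≤ X) (hX : X ≤ C) (hs : 0 ≤ s) (hS : 0 ≤ S) (hD : 0 ≤ D)
    (hT : T ≤ Cb * κ ^ 2 * S + Cb * D) (hR : R ≤ κ ^ 2 * (κ * S + T / κ))
    (h1 : κ ^ 3 * S ≤ ε3 * Y) (h2 : κ ^ 3 * D ≤ ε3 * Y) :
    X / 4 * (T - s * S) + R / 2 ≤ (2 * C * Cb + Cb + 1) * (ε3 * Y) := by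
  have hκ0 : 0 < κ := by linarith
  have hC0 : 0 < C := by linarith
  have hp2 : κ ^ 2 ≤ κ ^ 3 := pow_le_pow_right₀ hκ (by norm_num)
  have hp0 : 1 ≤ κ ^ 3 := one_le_pow₀ hκ
  have hp1 : κ ≤ κ ^ 3 := by
    calc κ = κ ^ 1 := (pow_one κ).symm
      _ ≤ κ ^ 3 := pow_le_pow_right₀ hκ (by norm_num)
  have a1 : κ ^ 2 * S ≤ ε3 * Y := (mul_le_mul_of_nonneg_right hp2 hS).trans h1
  have a2 : D ≤ ε3 * Y := by
    have := mul_le_mul_of_nonneg_right hp0 hD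
    linarith
  have a3 : κ * D ≤ ε3 * Y := (mul_le_mul_of_nonneg_right hp1 hD).trans h2
  have hεY : 0 ≤ ε3 * Y := le_trans hD a2
  have hT' : T ≤ 2 * Cb * (ε3 * Y) := by
    have b1 := mul_le_mul_of_nonneg_left a1 hCb
    have b2 := mul_le_mul_of_nonneg_left a2 hCb
    have e : Cb * κ ^ 2 * S = Cb * (κ ^ 2 * S) := by ring
    linarith
  have hXT : X / 4 * (T - s * S) ≤ 2 * C * Cb * (ε3 * Y) := by
    have b0 : 0 ≤ s * S := by positivity
    have b1 : X / 4 * (T - s * S) ≤ X / 4 * (2 * Cb * (ε3 * Y)) :=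
      mul_le_mul_of_nonneg_left (by linarith) (by positivity)
    have b2 : X / 4 * (2 * Cb * (ε3 * Y)) ≤ C * (2 * Cb * (ε3 * Y)) :=
      mul_le_mul_of_nonneg_right (by linarith) (by positivity)
    linarith
  have hR' : R ≤ (1 + 2 * Cb) * (ε3 * Y) := by
    have e : κ ^ 2 * (κ * S + T / κ) = κ ^ 3 * S + κ * T := by field_simp
    have b1 : κ * T ≤ Cb * (κ ^ 3 * S) + Cb * (κ * D) := by
      have := mul_le_mul_of_nonneg_left hT hκ0.le
      refine this.trans (le_of_eq ?_)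
      ring
    have b2 := mul_le_mul_of_nonneg_left h1 hCb
    have b3 := mul_le_mul_of_nonneg_left a3 hCb
    rw [e] at hR
    linarith
  linarith

/-- Bound of the real part term. -/
theorem R_le {lam w w1 : ℂ} {m κ : ℝ} (hm : 0 ≤ m) (hκ : 0 < κ) (hlam : ‖lam‖ ≤ κ ^ 2) :
    m * (conj lam * (w1 * conj w)).re ≤ κ ^ 2 * (κ * (m * normSq w) + (m * normSq w1) / κ) := by
  have h1 : (conj lam * (w1 * conj w)).re ≤ κ ^ 2 * (1 / κ * normSq w1 + κ * normSq w) := by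
    refine (Complex.re_le_norm _).trans ?_
    rw [norm_mul, Complex.norm_conj]
    have h2 := norm_mul_conj_le (x := w1) (y := w) (G := 1 / κ) (by positivity)
    have e2 : 1 / (2 * (1 / κ)) = κ / 2 := by field_simp
    rw [e2] at h2
    have h3 : 1 / κ / 2 * normSq w1 ≤ 1 / κ * normSq w1 :=
      mul_le_mul_of_nonneg_right (half_le_self (by positivity)) (normSq_nonneg _)
    have h4 : κ / 2 * normSq w ≤ κ * normSq w :=
      mul_le_mul_of_nonneg_right (half_le_self hκ.le) (normSq_nonneg _)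
    exact mul_le_mul hlam (by linarith) (norm_nonneg _) (by positivity)
  refine (mul_le_mul_of_nonneg_left h1 hm).trans (le_of_eq ?_)
  ring

end Vale.Agent.P139.H657
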